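import Vale.Agent.P218C.Eq

/-! Uniform bounds for the 2-jets of the geometric quantities on the ends. -/

open Set Filter Topology Metric
open scoped ContDiff RealInnerProductSpace Real

noncomputable section

namespace Vale.Agent.P218T

open Vale.Agent.P218B (J2 d2 gr2)
open Vale.Agent.P218N (cr cd_cr)
open Vale.Agent.P218T.Cy

variable {D V W X : Type} [NormedAddCommGroup D] [NormedSpace ℝ D] [NormedAddCommGroup V]
  [NormedSpace ℝ V] [NormedAddCommGroup W] [NormedSpace ℝ W] [NormedAddCommGroup X]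
  [NormedSpace ℝ X] {R R' a b : ℝ}

theorem j2_cpt {φ : D → V} {s : Set D} (hs : IsCompact s) (h : ∀ x ∈ s, ContDiffAt ℝ 2 φ x) :
    ∃ K, 1 ≤ K ∧ ∀ x ∈ s, J2 φ x K K K := by
  obtain ⟨K, hK⟩ := hs.exists_bound_of_continuousOn
    (f := fun x => (φ x, fderiv ℝ φ x, d2 φ x)) fun x hx =>
      ((h x hx).continuousAt.prodMk ((((h x hx).fderiv_right (m := 1) le_rfl)).continuousAt.prodMk
        ((((h x hx).fderiv_right (m := 1) le_rfl).fderiv_right (m := 0)
          le_rfl).continuousAt))).continuousWithinAt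
  refine ⟨max 1 K, le_max_left _ _, fun x hx => ?_⟩
  obtain ⟨k0, k⟩ := norm_prod_le_iff.1 ((hK x hx).trans (le_max_right 1 K))
  exact ⟨h x hx, k0, (norm_prod_le_iff.1 k).1, (norm_prod_le_iff.1 k).2⟩

variable {F F' : ℝ × ℝ → V} {G : ℝ × ℝ → W}

/-- periodic functions have bounded jets on strips -/
theorem j2_strip (p : Per R F) (ha : R < a) (h : ∀ y : ℝ × ℝ, y.1 ∈ Icc a b → ContDiffAt ℝ 2 F y) :
    ∃ K, 1 ≤ K ∧ ∀ y : ℝ × ℝ, y.1 ∈ Icc a b → J2 F y K K K := by
  obtain ⟨K, K1, hK⟩ := j2_cpt (isCompact_Icc.prod (isCompact_Icc (a := 0) (b := 2 * π)))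
    fun y hy => h y hy.1
  refine ⟨K, K1, fun y hy => ?_⟩
  obtain ⟨θ, hθ, e⟩ := (p.comp₂ (p.fderiv.comp₂ p.fderiv.fderiv Prod.mk) Prod.mk).red
    (ha.trans_le hy.1) y.2
  obtain ⟨e0, e1, e2⟩ : F (y.1, θ) = F y ∧ fderiv ℝ F (y.1, θ) = fderiv ℝ F y ∧
    d2 F (y.1, θ) = d2 F y := by simpa using e
  have k := hK (y.1, θ) ⟨hy, Ico_subset_Icc_self hθ⟩
  exact ⟨h y hy, e0 ▸ k.h0, e1 ▸ k.h1, e2 ▸ k.h2⟩

/-- uniformly bounded 2-jets above the height `R` -/
def UB (R : ℝ) (F : ℝ × ℝ → V) : Prop := ∃ K, 1 ≤ K ∧ ∀ y : ℝ × ℝ, R < y.1 → J2 F y K K K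

namespace UB

theorem of {s t r : ℝ} (h : ∀ y : ℝ × ℝ, R < y.1 → J2 F y s t r) : UB R F :=
  ⟨max 1 (max s (max t r)), le_max_left _ _, fun y hy => (h y hy).mono (by simp) (by simp)
    (by simp)⟩

theorem mono (h : UB R F) (k : R ≤ R') : UB R' F :=
  h.imp fun _ h => ⟨h.1, fun y hy => h.2 y (k.trans_lt hy)⟩

theorem congr (h : UB R F) (e : ∀ y : ℝ × ℝ, R < y.1 → F' y = F y) : UB R F' :=
  h.imp fun _ h => ⟨h.1, fun y hy => (h.2 y hy).congr ((ev_ht hy).mono e)⟩

theorem const (v : V) : UB R fun _ => v := of fun y _ => J2.const v y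

theorem prodMk (h : UB R F) (k : UB R G) : UB R fun y => (F y, G y) := by
  obtain ⟨K, -, h⟩ := h
  obtain ⟨L, -, k⟩ := k
  exact of fun y hy => ((h y hy).mono (le_max_left K L) (le_max_left K L) (le_max_left K L)).prodMk
    ((k y hy).mono (le_max_right K L) (le_max_right K L) (le_max_right K L))

theorem comp {φ : V → W} {s : Set V} (h : UB R F) (hs : IsCompact s)
    (hφ : ∀ x ∈ s, ContDiffAt ℝ 2 φ x) (m : ∀ y : ℝ × ℝ, R < y.1 → F y ∈ s) :
    UB R fun y => φ (F y) := by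
  obtain ⟨K, -, h⟩ := h
  obtain ⟨L, -, k⟩ := j2_cpt hs hφ
  exact of fun y hy => (k _ (m y hy)).comp (h y hy)

/-- smooth expressions in bounded quantities are bounded -/
theorem sm [ProperSpace V] (φ : V → W) (h : UB R F) (hφ : ContDiff ℝ 2 φ) :
    UB R fun y => φ (F y) := by
  obtain ⟨K, -, k⟩ := id h
  exact h.comp (isCompact_closedBall 0 K) (fun _ _ => hφ.contDiffAt) fun y hy =>
    mem_closedBall_zero_iff.2 (k y hy).h0

theorem add (h : UB R F) (k : UB R F') : UB R fun y => F y + F' y := by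
  obtain ⟨K, -, h⟩ := h
  obtain ⟨L, -, k⟩ := k
  exact of fun y hy => (h y hy).add (k y hy)

theorem sub (h : UB R F) (k : UB R F') : UB R fun y => F y - F' y := by
  obtain ⟨K, -, h⟩ := h
  obtain ⟨L, -, k⟩ := k
  exact of fun y hy => (h y hy).sub (k y hy)

theorem clm (h : UB R F) (L : V →L[ℝ] W) : UB R fun y => L (F y) := by
  obtain ⟨K, -, h⟩ := h
  exact of fun y hy => (h y hy).lin L le_rfl

theorem bil (B : V →L[ℝ] W →L[ℝ] X) (hB : ‖B‖ ≤ 1) (h : UB R F) (k : UB R G) :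
    UB R fun y => B (F y) (G y) := by
  obtain ⟨K, -, h⟩ := h
  obtain ⟨L, -, k⟩ := k
  exact of fun y hy => (h y hy).bil B hB (k y hy)

theorem smul {u : ℝ × ℝ → ℝ} (h : UB R u) (k : UB R F) : UB R fun y => u y • F y :=
  bil (.lsmul ℝ ℝ) ContinuousLinearMap.opNorm_lsmul_le h k

theorem mul {A : Type} [NormedRing A] [NormedAlgebra ℝ A] {u v : ℝ × ℝ → A} (h : UB R u)
    (k : UB R v) : UB R fun y => u y * v y :=
  bil (.mul ℝ A) (ContinuousLinearMap.opNorm_mul_le ℝ A) h k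

theorem inv {u : ℝ × ℝ → ℝ} (h : UB R u) (ha : 0 < a) (m : ∀ y : ℝ × ℝ, R < y.1 → a ≤ |u y|) :
    UB R fun y => (u y)⁻¹ := by
  obtain ⟨K, -, k⟩ := id h
  refine h.comp (s := {x | a ≤ |x|} ∩ closedBall 0 K) ((isCompact_closedBall 0 K).inter_left
    (isClosed_le continuous_const continuous_abs)) (fun x hx => contDiffAt_inv ℝ ?_)
    fun y hy => ⟨m y hy, mem_closedBall_zero_iff.2 (k y hy).h0⟩
  exact abs_pos.1 (ha.trans_le hx.1)

theorem sqrt {u : ℝ × ℝ → ℝ} (h : UB R fun y => u y ^ 2) (ha : 0 < a)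
    (m : ∀ y : ℝ × ℝ, R < y.1 → a ≤ u y) : UB R u := by
  obtain ⟨K, -, k⟩ := id h
  refine (h.comp (s := Icc (a ^ 2) K) isCompact_Icc (fun x hx => Real.contDiffAt_sqrt ?_)
    fun y hy => ⟨pow_le_pow_left₀ ha.le (m y hy) 2, (le_abs_self _).trans (k y hy).h0⟩).congr
      fun y hy => (Real.sqrt_sq (ha.le.trans (m y hy))).symm
  exact ((pow_pos ha 2).trans_le hx.1).ne'

end UB

theorem Cy.Dc.ub (h : Dc F) (R : ℝ) : UB R F := by
  obtain ⟨R₁, k⟩ := ev_up.1 (h.j2 one_pos)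
  obtain ⟨K, K1, l⟩ := j2_strip (R := R - 1) (a := R) (b := R₁) (fun z θ _ => h.per z θ)
    (by linarith) fun y _ => h.sm.contDiffAt.of_le (le_inf 2)
  exact ⟨K, K1, fun y hy => (le_total y.1 R₁).elim (fun e => l y ⟨hy.le, e⟩)
    fun e => (k y e).mono K1 K1 K1⟩

theorem ub_per {g : ℝ → V} (h : ContDiff ℝ ∞ g) (p : ∀ θ, g (θ + 2 * π) = g θ) :
    UB R fun y => g y.2 := (j2_per (h.of_le (le_inf 2)) p).imp fun _ k => ⟨k.1, fun y _ => k.2 y⟩

theorem j2_lg {y : ℝ × ℝ} (hy : 1 ≤ y.1) :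
    J2 (fun q : ℝ × ℝ => (Real.log q.1, q.2)) y (max |Real.log y.1| |y.2|) 1 1 :=
  (((Co.j2_log hy).comp (Co.j2_fst y)).mono (le_max_left _ _) (by simp) (by simp)).prodMk
    ((Co.j2_snd y).mono (le_max_right _ _) le_rfl zero_le_one)

theorem UB.log (h : UB (-1) F) (hR : 1 ≤ R) : UB R fun y => F (Real.log y.1, y.2) := by
  obtain ⟨K, -, h⟩ := h
  exact .of fun y hy => (h _ (by linarith [Real.log_nonneg (hR.trans hy.le)])).comp
    (f := fun q : ℝ × ℝ => (Real.log q.1, q.2)) (j2_lg (hR.trans hy.le))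

theorem ub_inv (hR : 1 ≤ R) : UB R fun y => y.1⁻¹ := by
  refine (UB.log (F := fun y => Real.exp (-y.1)) ?_ hR).congr fun y hy => by
    rw [Real.exp_neg, Real.exp_log (one_pos.trans_le (hR.trans hy.le))]
  have k : ∀ x : ℝ, J2 Real.exp x (Real.exp x) (Real.exp x) (Real.exp x) := fun x => by
    refine Co.j2_it Real.contDiff_exp.contDiffAt ?_ ?_ ?_ <;>
      simp [norm_iteratedFDeriv_eq_norm_iteratedDeriv, iteratedDeriv_eq_iterate,
        Real.iter_deriv_exp]
  refine .of (s := Real.exp 1) (t := Real.exp 1) (r := Real.exp 1) fun y hy => ?_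
  have e : Real.exp (-y.1) ≤ Real.exp 1 := Real.exp_le_exp.2 (by linarith)
  simpa using ((k (0 - y.1)).mono (by simpa using e) (by simpa using e) (by simpa using e)).comp
    (f := fun q : ℝ × ℝ => 0 - q.1) ((J2.const 0 y).sub (Co.j2_fst y))

namespace Mod

variable (M : Mod)

/-- the length scale of the angular direction -/
def sc : M.I → ℝ → ℝ
  | .inl _ => fun _ => 1
  | .inr _ => fun z => z

namespace Geo

variable {M} (g : M.Geo) {y : ℝ × ℝ}
include g

theorem sc_pos (e : M.I) (hy : M.R < y.1) : 0 < M.sc e y.1 := by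
  rcases e with i | j
  exacts [one_pos, one_pos.trans (g.pos hy)]

theorem ub_f (i : Fin M.n₁) : UB M.R (M.f i) := (dc_of (g.ended.cyl i)).ub _

theorem ub_G (j : Fin M.n₂) : UB M.R fun y => M.g j (Real.log y.1, y.2) :=
  ((dc_of (g.ended.cone j)).ub _).log g.one.1

theorem ub_nE (e : M.I) : UB M.R fun y => M.nE e y.2 := ub_per (g.cd_nE e) (g.per_nE e)

theorem ub_kap (j : Fin M.n₂) : UB M.R fun y => kap (M.γ j) (M.n j) y.2 :=
  ub_per (conj' _ _ (g.link j)).2.2.1 (conj' _ _ (g.link j)).2.2.2.1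

theorem ub_dP (e : M.I) : (UB M.R fun y => fderiv ℝ (M.P e) y (1, 0)) ∧
    UB M.R fun y => (M.sc e y.1)⁻¹ • fderiv ℝ (M.P e) y (0, 1) := by
  have n := g.ub_nE e
  rcases e with i | j
  · have h := dc_of (g.ended.cyl i)
    have t : UB M.R fun y => eT (M.Q i) y.2 := by
      refine (ub_per (g := deriv (eR (M.Q i))) ((eR_sm _).iterate_deriv 1) fun θ => ?_).congr
        fun y _ => (eR_der _ _).deriv.symm
      simp [(eR_der _ _).deriv, eT]
    exact ⟨((((h.dir (1, 0)).ub _).smul n).add (.const (axis (M.Q i)))).congr fun y _ => by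
      simp [P, cylPt_der _ h, nE], ((((h.dir (0, 1)).ub _).smul n).add
        (((UB.const √2).add (g.ub_f i)).smul t)).congr fun y _ => by
      simp [P, cylPt_der _ h, nE, sc]⟩
  · have h := dc_of (g.ended.cone j)
    have l := g.link j
    have d : ∀ {u : ℝ → E3}, ContDiff ℝ ∞ u → (∀ θ, u (θ + 2 * π) = u θ) →
        UB M.R fun y => deriv u y.2 := fun {u} k p => ub_per (k.iterate_deriv 1) fun θ => by
      rw [← deriv_comp_add_const, funext p]
    refine ⟨((ub_per l.smooth l.per).add (((g.ub_G j).add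
      (((h.dir (1, 0)).ub _).log g.one.1)).smul n)).congr fun y hy => by
        simp [P, Co.dP l (g.ended.cone j) (one_pos.trans (g.pos hy)), nE, Co.G],
      (((d l.smooth l.per).add ((((h.dir (0, 1)).ub _).log g.one.1).smul n)).add
        ((g.ub_G j).smul (d l.smooth_n l.per_n))).congr fun y hy => ?_⟩
    have p := one_pos.trans (g.pos hy)
    have e : ((0, y.1) : ℝ × ℝ) = y.1 • (0, 1) := by simp
    simp only [P, Co.dP l (g.ended.cone j) p, nE, Co.G, sc, mul_one, zero_smul, zero_mul,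
      zero_add, e, map_smul, smul_add, smul_smul, smul_eq_mul, inv_mul_cancel₀ p.ne', one_smul,
      inv_mul_cancel_left₀ p.ne']

theorem abs_qn (e : M.I) (hy : M.R < y.1) : |M.qn e y| ∈ Icc (1 / 8) 1 := by
  have h := g.qn_mem e hy
  have h3 : |M.s e| = 1 := by
    rw [← sq_eq_sq₀ (abs_nonneg _) zero_le_one, sq_abs, pow_two, (g.sq e).1, one_pow]
  rwa [← abs_of_pos (lt_of_lt_of_le (by norm_num) h.1), abs_mul, h3, one_mul] at h

/-- the normalised area element is bounded below -/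
theorem JS_lo : ∃ c > 0, ∀ e (y : ℝ × ℝ), M.R < y.1 → c ≤ (M.sc e y.1)⁻¹ * M.JS e y := by
  have : ∀ e, ∃ c > 0, ∀ y : ℝ × ℝ, M.R < y.1 → c ≤ (M.sc e y.1)⁻¹ * M.JS e y := fun e => by
    rcases e with i | j
    · refine ⟨1 / 2, by norm_num, fun y hy => ?_⟩
      have := (g.qn_mem (.inl i) hy).2
      have p := g.ori (.inl i) y hy
      rw [qn, ← mul_div_assoc, (g.sq _).1, div_le_one (by positivity)] at this
      simp only [sc]
      linarith
    · have l := g.spd_pos j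
      refine ⟨spd (M.γ j) / 2, by positivity, fun y hy => ?_⟩
      have := (g.qn_mem (.inr j) hy).2
      have p := g.ori (.inr j) y hy
      have z := one_pos.trans (g.pos hy)
      have k := (abs_le.1 (g.ku j y hy)).2
      rw [g.qn_con hy, kn, show ∀ s l J z x : ℝ, s * (l * s / J * z * x) = s * s * (l * z * x) / J
        from fun _ _ _ _ _ => by ring, (g.sq _).1, div_le_one p] at this
      simp only [sc]
      rw [le_inv_mul_iff₀ z]
      nlinarith [mul_pos l z]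
  choose c c0 hc using this
  obtain ⟨d, hd, d0⟩ := ((eventually_all.2 fun e => (ge_mem_nhds (c0 e)).filter_mono
    (nhdsWithin_le_nhds (s := Ioi 0))).and self_mem_nhdsWithin).exists
  exact ⟨d, d0, fun e y hy => (hd e).trans (hc e y hy)⟩

theorem ub_JS (e : M.I) : UB M.R fun y => (M.sc e y.1)⁻¹ * M.JS e y := by
  obtain ⟨c, c0, h⟩ := g.JS_lo
  refine .sqrt ((((g.ub_dP e).1.prodMk (g.ub_dP e).2).sm (fun p => gr2 p.1 p.2) ?_).congr
    fun y hy => ?_) c0 (h e)
  · unfold gr2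
    exact ((contDiff_norm_sq ℝ).comp contDiff_fst).mul ((contDiff_norm_sq ℝ).comp contDiff_snd)
      |>.sub ((contDiff_fst.inner ℝ contDiff_snd).pow 2)
  · rw [mul_pow, g.JS_sq e hy]
    simp only [gr2, norm_smul, inner_smul_right, mul_pow, Real.norm_eq_abs, sq_abs]
    ring

theorem ub_JS' (e : M.I) : UB M.R fun y => M.sc e y.1 / M.JS e y := by
  obtain ⟨c, c0, h⟩ := g.JS_lo
  exact ((g.ub_JS e).inv c0 fun y hy => (h e y hy).trans (le_abs_self _)).congr fun y _ => by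
    rw [mul_inv, inv_inv, div_eq_mul_inv]

/-- `kn` times the scale -/
theorem ub_kn' (e : M.I) : UB M.R fun y => M.sc e y.1 * M.kn e y := by
  rcases e with i | j
  · exact ((UB.const (M.s (.inl i) / 2)).mul (g.ub_JS' _)).congr fun y _ => by
      simp only [kn]; ring
  · exact ((UB.const (spd (M.γ j) * M.s (.inr j))).mul (g.ub_JS' _)).congr fun y _ => by
      simp only [kn]; ring

theorem ub_kn (e : M.I) : UB M.R (M.kn e) := by
  rcases e with i | j
  · simpa [sc] using g.ub_kn' (.inl i)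
  · exact ((ub_inv g.one.1).mul (g.ub_kn' (.inr j))).congr fun y hy =>
      (inv_mul_cancel_left₀ (one_pos.trans (g.pos hy)).ne' _).symm

theorem ub_qn (e : M.I) : UB M.R (M.qn e) := by
  rcases e with i | j
  · exact g.ub_kn (.inl i)
  · exact ((g.ub_kn' (.inr j)).mul ((UB.const 1).sub ((g.ub_kap j).mul (g.ub_G j)))).congr
      fun y hy => by rw [g.qn_con hy, sc, mul_comm y.1]

theorem ub_qn' (e : M.I) : UB M.R fun y => (M.qn e y)⁻¹ :=
  (g.ub_qn e).inv (by norm_num) fun _ hy => (g.abs_qn e hy).1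

/-- the normal -/
theorem ub_nu (e : M.I) : UB M.R fun y => gradient M.w (M.P e y) := by
  refine ((((UB.const (M.sg e)).mul (g.ub_JS' e)).prodMk ((g.ub_dP e).1.prodMk (g.ub_dP e).2)).sm
    (fun p => p.1 • (EuclideanSpace.equiv (Fin 3) ℝ).symm (cr p.2.1.ofLp p.2.2.ofLp)) ?_).congr
      fun y hy => ?_
  · refine contDiff_fst.smul ((EuclideanSpace.equiv (Fin 3) ℝ).symm.contDiff.comp
      (contDiff_iff_contDiffAt.2 fun p => contDiffWithinAt_univ.1 (cd_cr ?_ ?_))) <;>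
    exact ((EuclideanSpace.equiv (Fin 3) ℝ).contDiff.comp (by fun_prop)).contDiffAt.contDiffWithinAt
  · have h := g.cr_P e hy
    have s := (g.sc_pos e hy).ne'
    have p := (g.ori e y hy).ne'
    have e1 : cr (fderiv ℝ (M.P e) y (1, 0)).ofLp ((M.sc e y.1)⁻¹ • fderiv ℝ (M.P e) y (0, 1)).ofLp
        = (M.sc e y.1)⁻¹ • cr (fderiv ℝ (M.P e) y (1, 0)).ofLp (fderiv ℝ (M.P e) y (0, 1)).ofLp := by
      apply P218N.ext3 <;> simp <;> ring
    simp only [e1, h, g.Js_eq, map_smul, smul_smul]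
    rw [show ∀ s c J : ℝ, s * (c / J) * (c⁻¹ * (s * J)) = s * s * (c * c⁻¹) * (J / J) from
      fun _ _ _ => by ring, g.sg_sq, mul_inv_cancel₀ s, div_self p]
    simp

end Geo

end Mod

end Vale.Agent.P218T
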