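import Vale.Agent.P218C.Lift

/-! The area element of the ends and the area measure in the charts. -/

open MeasureTheory Set Filter Topology Metric
open scoped ContDiff RealInnerProductSpace Real ENNReal

noncomputable section

namespace Vale.Agent.P218T

open Vale.Agent.P218B
open Vale.Agent.P218N (cr dt sig cr0 cr1 cr2 ext3 cd_dt cd_cr smul_dt)

theorem cr_eq {a b n : Fin 3 → ℝ} (ha : dt n a = 0) (hb : dt n b = 0) (hn : dt n n = 1) :
    cr a b = dt (cr a b) n • n := by
  simp only [dt] at ha hb hn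
  apply ext3 <;> simp only [dt, cr0, cr1, cr2, Pi.smul_apply, smul_eq_mul]
  · linear_combination (n 1 * b 2 - n 2 * b 1) * ha - (n 1 * a 2 - n 2 * a 1) * hb
      - (a 1 * b 2 - a 2 * b 1) * hn
  · linear_combination (n 2 * b 0 - n 0 * b 2) * ha - (n 2 * a 0 - n 0 * a 2) * hb
      - (a 2 * b 0 - a 0 * b 2) * hn
  · linear_combination (n 0 * b 1 - n 1 * b 0) * ha - (n 0 * a 1 - n 1 * a 0) * hb
      - (a 0 * b 1 - a 1 * b 0) * hn

theorem Per.fderiv {V : Type*} [NormedAddCommGroup V] [NormedSpace ℝ V] {R : ℝ} {F : ℝ × ℝ → V}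
    (h : Per R F) : Per R (fderiv ℝ F) := fun z θ hz => by
  have : (fun q : ℝ × ℝ => F (q + (0, 2 * π))) =ᶠ[𝓝 (z, θ)] F :=
    (ev_ht (y := (z, θ)) hz).mono fun q hq => by simpa [Prod.add_def] using h q.1 q.2 hq
  rw [← this.fderiv_eq, fderiv_comp_add_right]
  simp

namespace Mod.Geo

variable {M : Mod} (g : M.Geo) {e : M.I} {y : ℝ × ℝ} {t : Set ℝ} {a b : ℝ}
include g

theorem sg_sq (e : M.I) : M.sg e * M.sg e = 1 := by
  obtain ⟨h1, h2⟩ := g.sq e
  rcases e with i | j <;> simp only [sg] <;> nlinarith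

theorem cr_P (e : M.I) (hy : M.R < y.1) :
    cr (fderiv ℝ (M.P e) y (1, 0)).ofLp (fderiv ℝ (M.P e) y (0, 1)).ofLp =
      M.Js e y • (gradient M.w (M.P e y)).ofLp :=
  cr_eq (by rw [← inner_eq_dt, g.nu_perp e hy]) (by rw [← inner_eq_dt, g.nu_perp e hy])
    (by rw [← inner_eq_dt, real_inner_self_eq_norm_sq, g.norm_nu (g.mem e y hy), one_pow])

theorem Js_eq (e : M.I) (y : ℝ × ℝ) : M.Js e y = M.sg e * M.JS e y := by
  rw [JS, ← mul_assoc, g.sg_sq, one_mul]

theorem Js_ne (e : M.I) (hy : M.R < y.1) : M.Js e y ≠ 0 := fun h => by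
  simpa [JS, h] using g.ori e y hy

theorem JS_sq (e : M.I) (hy : M.R < y.1) :
    M.JS e y ^ 2 = gr2 (fderiv ℝ (M.P e) y (1, 0)) (fderiv ℝ (M.P e) y (0, 1)) := by
  have := g.norm_nu (g.mem e y hy)
  rw [gr2_eq, g.cr_P e hy, smul_dt, P218N.dt_smul, ← inner_eq_dt, real_inner_self_eq_norm_sq, this,
    JS]
  linear_combination M.Js e y ^ 2 * g.sg_sq e

theorem JS_eq (e : M.I) (hy : M.R < y.1) :
    M.JS e y = √(gr2 (fderiv ℝ (M.P e) y (1, 0)) (fderiv ℝ (M.P e) y (0, 1))) := by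
  rw [← g.JS_sq e hy, Real.sqrt_sq (g.ori e y hy).le]

theorem cd_nu (e : M.I) (hy : M.R < y.1) :
    ContDiffAt ℝ ∞ (fun q => gradient M.w (M.P e q)) y := g.tb.snu.contDiffAt.comp y (g.cdP e hy)

theorem cd_Js (e : M.I) (hy : M.R < y.1) : ContDiffAt ℝ ∞ (M.Js e) y := by
  have h1 : ContDiffAt ℝ ∞ (fderiv ℝ (M.P e)) y := (g.cdP e hy).fderiv_right le_rfl
  have h2 : ∀ {u : ℝ × ℝ → E3}, ContDiffAt ℝ ∞ u y →
      ContDiffWithinAt ℝ ∞ (fun q => (u q).ofLp) univ y := fun h =>
    ((EuclideanSpace.equiv (Fin 3) ℝ).contDiff.contDiffAt.comp y h).contDiffWithinAt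
  exact contDiffWithinAt_univ.1 (cd_dt (cd_cr (h2 (h1.clm_apply contDiffAt_const))
    (h2 (h1.clm_apply contDiffAt_const))) (h2 (g.cd_nu e hy)))

theorem cd_JS (e : M.I) (hy : M.R < y.1) : ContDiffAt ℝ ∞ (M.JS e) y :=
  contDiffAt_const.mul (g.cd_Js e hy)

theorem per_Js (e : M.I) : Per M.R (M.Js e) := fun z θ hz => by
  simp only [Js, Jg, (g.perP e).fderiv z θ hz, g.perP e z θ hz]

theorem per_JS (e : M.I) : Per M.R (M.JS e) := (g.per_Js e).comp _

theorem cont_JS (ht : t ⊆ Ioi M.R) : ContinuousOn (M.JS e) (t ×ˢ univ) := fun _ hy =>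
  (g.cd_JS e (ht hy.1)).continuousAt.continuousWithinAt

theorem par (e : M.I) : Par (Ioi M.R ×ˢ univ) (M.P e) (fderiv ℝ (M.P e)) :=
  ⟨fun _ hy => (g.cdP e hy.1).hasStrictFDerivAt (by simp), fun _ hy => by
    rw [← g.JS_sq e hy.1]
    exact pow_ne_zero 2 (g.ori e _ hy.1).ne', fun _ hy =>
    ((g.cdP e hy.1).fderiv_right (m := ∞) le_rfl).continuousAt.continuousWithinAt⟩

theorem meas_En (hm : MeasurableSet t) (ht : t ⊆ Ioi M.R) : MeasurableSet (M.En e t) := by
  rw [g.En_eq ht]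
  exact (hm.prod measurableSet_Ico).image_of_continuousOn_injOn
    ((g.contP ht).mono (prod_mono Subset.rfl (subset_univ _))) (g.injOn ht)

theorem lint_En (hm : MeasurableSet t) (ht : t ⊆ Ioi M.R) {f : E3 → ℝ≥0∞} (hf : Measurable f) :
    ∫⁻ x in M.En e t, f x ∂(sig M.w) =
      ∫⁻ y in t ×ˢ Ico 0 (2 * π), ENNReal.ofReal (M.JS e y) * f (M.P e y) := by
  have h1 : M.En e t ∩ {x | M.w x = 0} = M.En e t :=
    inter_eq_left.2 fun x hx => g.w_zero (g.En_sub ht hx)
  have h2 := hm.prod (measurableSet_Ico (a := 0) (b := 2 * π))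
  rw [sig, Measure.restrict_restrict (g.meas_En hm ht), h1, Measure.euclideanHausdorffMeasure_def,
    Measure.restrict_smul, lintegral_smul_measure, g.En_eq ht,
    (g.par e).lintegral_eq h2 (prod_mono ht (subset_univ _)) (g.injOn ht) hf, ENNReal.smul_def,
    smul_eq_mul, ← mul_assoc, ← ENNReal.coe_mul, cH,
    mul_inv_cancel₀ (Measure.addHaarScalarFactor_volume_hausdorffMeasure_ne_zero 2),
    ENNReal.coe_one, one_mul]
  exact setLIntegral_congr_fun h2 fun y hy => by
    simp only [g.JS_eq e (ht hy.1), mul_comm]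

theorem aem_P (hm : MeasurableSet t) (ht : t ⊆ Ioi M.R) :
    AEMeasurable (M.P e) (volume.restrict (t ×ˢ Ico 0 (2 * π))) :=
  ((g.contP ht).mono (prod_mono Subset.rfl (subset_univ _))).aemeasurable
    (hm.prod measurableSet_Ico)

theorem aem_JS (hm : MeasurableSet t) (ht : t ⊆ Ioi M.R) :
    AEMeasurable (fun y => (M.JS e y).toNNReal) (volume.restrict (t ×ˢ Ico 0 (2 * π))) :=
  (((g.cont_JS ht).mono (prod_mono Subset.rfl (subset_univ _))).aemeasurable
    (hm.prod measurableSet_Ico)).real_toNNReal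

/-- **the area measure in a chart** -/
theorem map_En (hm : MeasurableSet t) (ht : t ⊆ Ioi M.R) : (sig M.w).restrict (M.En e t) =
    ((volume.restrict (t ×ˢ Ico 0 (2 * π))).withDensity
      fun y => (M.JS e y).toNNReal).map (M.P e) := by
  refine Measure.ext_of_lintegral _ fun f hf => ?_
  have h := g.aem_P (e := e) hm ht
  rw [g.lint_En hm ht hf, lintegral_map' hf.aemeasurable
    (h.mono_ac (withDensity_absolutelyContinuous _ _))]
  exact (lintegral_withDensity_eq_lintegral_mul₀ (g.aem_JS hm ht).coe_nnreal_ennreal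
    (hf.comp_aemeasurable h)).symm

theorem null_En (ha : M.R < a) : sig M.w (M.En e {a}) = 0 := by
  rw [← setLIntegral_one, g.lint_En (measurableSet_singleton a) (singleton_subset_iff.2 ha)
    measurable_const]
  refine setLIntegral_measure_zero _ _ ?_
  rw [Measure.volume_eq_prod, Measure.prod_prod, Real.volume_singleton, zero_mul]

variable {V : Type*} [NormedAddCommGroup V] {f : E3 → V}

theorem contOn_En (ht : t ⊆ Ioi M.R) (hf : ContinuousOn (fun y => f (M.P e y)) (t ×ˢ univ)) :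
    ContinuousOn f (M.En e t) := by
  rintro _ ⟨y, hy, rfl⟩ U hU
  have h1 := (eventually_nhdsWithin_iff.1 (hf y hy hU)).and (ev_ht (ht hy.1))
  rw [mem_map]
  filter_upwards [nhdsWithin_mono _ (g.En_sub ht) (g.image_nhds (ht hy.1) h1),
    self_mem_nhdsWithin]
  rintro _ ⟨q, hq, rfl⟩ k
  exact hq.1 ⟨(g.mem_En ht hq.2).1 k, trivial⟩

variable [NormedSpace ℝ V]

theorem smul_congr (hm : MeasurableSet t) (ht : t ⊆ Ioi M.R) :
    (fun y => (M.JS e y).toNNReal • f (M.P e y)) =ᵐ[volume.restrict (t ×ˢ Ico 0 (2 * π))]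
      fun y => M.JS e y • f (M.P e y) :=
  (ae_restrict_mem (hm.prod measurableSet_Ico)).mono fun y hy => by
    simp only [NNReal.smul_def, Real.coe_toNNReal _ (g.ori e y (ht hy.1)).le]

theorem int_En (hm : MeasurableSet t) (ht : t ⊆ Ioi M.R)
    (hf : AEStronglyMeasurable f ((sig M.w).restrict (M.En e t))) :
    ∫ x in M.En e t, f x ∂(sig M.w) = ∫ y in t ×ˢ Ico 0 (2 * π), M.JS e y • f (M.P e y) := by
  rw [g.map_En hm ht] at hf ⊢
  rw [integral_map ((g.aem_P hm ht).mono_ac (withDensity_absolutelyContinuous _ _)) hf,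
    integral_withDensity_eq_integral_smul₀ (g.aem_JS hm ht)]
  exact integral_congr_ae (g.smul_congr hm ht)

theorem integrable_En (hm : MeasurableSet t) (ht : t ⊆ Ioi M.R)
    (hf : AEStronglyMeasurable f ((sig M.w).restrict (M.En e t))) :
    IntegrableOn f (M.En e t) (sig M.w) ↔
      IntegrableOn (fun y => M.JS e y • f (M.P e y)) (t ×ˢ Ico 0 (2 * π)) := by
  rw [IntegrableOn, IntegrableOn]
  rw [g.map_En hm ht] at hf ⊢
  rw [integrable_map_measure hf ((g.aem_P hm ht).mono_ac (withDensity_absolutelyContinuous _ _)),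
    integrable_withDensity_iff_integrable_smul₀ (g.aem_JS hm ht)]
  exact integrable_congr (g.smul_congr hm ht)

/-- the chart formula on a compact piece of an end -/
theorem int_Icc [CompleteSpace V] (ha : M.R < a) (hab : a ≤ b)
    (hf : ContinuousOn (fun y => f (M.P e y)) (Icc a b ×ˢ univ)) :
    IntegrableOn f (M.En e (Icc a b)) (sig M.w) ∧ ∫ x in M.En e (Icc a b), f x ∂(sig M.w) =
      ∫ z in a..b, ∫ θ in (0 : ℝ)..2 * π, M.JS e (z, θ) • f (M.P e (z, θ)) := by
  have ht : Icc a b ⊆ Ioi M.R := fun z hz => ha.trans_le hz.1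
  have h1 : AEStronglyMeasurable f ((sig M.w).restrict (M.En e (Icc a b))) :=
    (g.contOn_En ht hf).aestronglyMeasurable_of_isCompact (g.isCompact_En isCompact_Icc ht)
      (g.meas_En measurableSet_Icc ht)
  have h2 : IntegrableOn (fun y => M.JS e y • f (M.P e y)) (Icc a b ×ˢ Ico 0 (2 * π)) :=
    ((((g.cont_JS ht).smul hf).mono (prod_mono Subset.rfl (subset_univ _))).integrableOn_compact
      (isCompact_Icc.prod isCompact_Icc)).mono_set (prod_mono Subset.rfl Ico_subset_Icc_self)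
  refine ⟨(g.integrable_En measurableSet_Icc ht h1).2 h2, ?_⟩
  rw [g.int_En measurableSet_Icc ht h1, Measure.volume_eq_prod, setIntegral_prod _ h2,
    intervalIntegral.integral_of_le hab, integral_Icc_eq_integral_Ioc]
  simp only [intervalIntegral.integral_of_le Real.two_pi_pos.le, integral_Ico_eq_integral_Ioo,
    integral_Ioc_eq_integral_Ioo]

end Mod.Geo

end Vale.Agent.P218T
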