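import Vale.Agent.P218T.Geo
import Vale.Agent.P218H.Geos

/-! The ends as subsets of the surface; lifts of functions of `(z, θ)`. -/

open MeasureTheory Set Filter Topology Metric
open scoped ContDiff RealInnerProductSpace Real

noncomputable section

namespace Vale.Agent.P218T

open Vale.Agent.P218.H63 (IsTubeShrinker contDiff_gradient inner_gradient)
open Vale.Agent.P218B
open Vale.Agent.P218H (prw Tube geos)

section per

variable {V V' : Type*} {R R' z : ℝ} {F : ℝ × ℝ → V}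

theorem Per.int (h : Per R F) (hz : R < z) (θ : ℝ) (k : ℤ) : F (z, θ + k * (2 * π)) = F (z, θ) :=
  (Function.Periodic.int_mul (f := fun θ => F (z, θ)) (fun θ => h z θ hz) k) θ

theorem Per.mono (h : Per R F) (hR : R ≤ R') : Per R' F := fun z θ hz => h z θ (hR.trans_lt hz)

theorem Per.comp (h : Per R F) (φ : V → V') : Per R fun y => φ (F y) := fun z θ hz =>
  congrArg φ (h z θ hz)

theorem Per.comp₂ {V'' : Type*} {G : ℝ × ℝ → V'} (h : Per R F) (k : Per R G) (φ : V → V' → V'') :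
    Per R fun y => φ (F y) (G y) := fun z θ hz => congrArg₂ φ (h z θ hz) (k z θ hz)

theorem per_z (φ : ℝ → V) : Per R fun y => φ y.1 := fun _ _ _ => rfl

theorem Per.red (h : Per R F) (hz : R < z) (θ : ℝ) : ∃ θ' ∈ Ico 0 (2 * π), F (z, θ') = F (z, θ) :=
  ⟨toIcoMod Real.two_pi_pos 0 θ, by simpa using toIcoMod_mem_Ico Real.two_pi_pos 0 θ, by
    rw [← h.int hz _ (toIcoDiv Real.two_pi_pos 0 θ), ← zsmul_eq_mul, toIcoMod_add_toIcoDiv_zsmul]⟩

theorem Cht.mono {P : ℝ × ℝ → E3} {K K' : ℝ} (h : Cht P R K) (hR : R ≤ R') (h0 : 0 ≤ R')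
    (hK : K ≤ K') : Cht P R' K' :=
  ⟨fun y hy => h.sm y (hR.trans_lt hy), h.per.mono hR,
    fun y y' hy hy' => h.fib y y' (hR.trans_lt hy) (hR.trans_lt hy'),
    fun y hy => h.rad y (hR.trans_lt hy),
    fun y hy v => (h.lo y (hR.trans_lt hy) v).trans (by gcongr), fun y hy => by
      have := mul_le_mul_of_nonneg_right hK (h0.trans hy.le)
      exact (h.j2 y (hR.trans_lt hy)).mono this this this⟩

end per

theorem ev_ht {R : ℝ} {y : ℝ × ℝ} (hy : R < y.1) : ∀ᶠ q : ℝ × ℝ in 𝓝 y, R < q.1 :=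
  continuousAt_fst.eventually (lt_mem_nhds hy)

namespace Mod

variable {M : Mod} {e e' : M.I} {y : ℝ × ℝ} {a : (ℝ × ℝ) × ℝ} {x p : E3} {t : Set ℝ} {c : ℝ}
  {V V' V'' : Type*} [NormedAddCommGroup V] [NormedAddCommGroup V'] [NormedAddCommGroup V'']
  {F G : ℝ × ℝ → V}

theorem Ph_zero (e : M.I) (y : ℝ × ℝ) : M.Ph e (y, 0) = M.P e y := by simp [Ph]

theorem isOpen_O : IsOpen M.O :=
  (isOpen_lt continuous_const continuous_fst.fst).inter
    (isOpen_lt continuous_snd.abs continuous_const)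

/-- pointwise operations commute with the lift -/
theorem lift_map₂ (φ : V → V' → V'') (h : φ 0 0 = 0) (F : ℝ × ℝ → V) (G : ℝ × ℝ → V') (x : E3) :
    M.lift e (fun y => φ (F y) (G y)) x = φ (M.lift e F x) (M.lift e G x) := by
  simp only [lift, desc]
  split_ifs
  exacts [rfl, h.symm]

theorem lift_map (φ : V → V') (h : φ 0 = 0) (F : ℝ × ℝ → V) (x : E3) :
    M.lift e (fun y => φ (F y)) x = φ (M.lift e F x) :=
  lift_map₂ (fun a (_ : V) => φ a) h F F x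

theorem lift_add (F G : ℝ × ℝ → V) (x : E3) :
    M.lift e (fun y => F y + G y) x = M.lift e F x + M.lift e G x :=
  lift_map₂ (· + ·) (add_zero 0) F G x

theorem lift_sub (F G : ℝ × ℝ → V) (x : E3) :
    M.lift e (fun y => F y - G y) x = M.lift e F x - M.lift e G x :=
  lift_map₂ (· - ·) (sub_zero 0) F G x

theorem lift_smul {𝕜 : Type*} [SMulZeroClass 𝕜 V] (k : 𝕜) (F : ℝ × ℝ → V) (x : E3) :
    M.lift e (fun y => k • F y) x = k • M.lift e F x := lift_map (k • ·) (smul_zero k) F x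

theorem lift_zero (x : E3) : M.lift e (fun _ => (0 : V)) x = 0 := by
  simp only [lift, desc, dite_eq_ite, ite_self]

theorem lift_mem {s : Set V} (h0 : 0 ∈ s) (h : ∀ y : ℝ × ℝ, M.R < y.1 → F y ∈ s) (x : E3) :
    M.lift e F x ∈ s := by
  simp only [lift, desc]
  split_ifs with k
  exacts [h _ k.choose_spec.1.1, h0]

theorem lift_congr (h : ∀ y : ℝ × ℝ, M.R < y.1 → F y = G y) : M.lift e F = M.lift e G := by
  funext x
  simp only [lift, desc]
  split_ifs with k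
  exacts [h _ k.choose_spec.1.1, rfl]

theorem lift_of_notMem (h : x ∉ M.Ph e '' M.O) : M.lift e F x = 0 := dif_neg h

theorem En_mono {t' : Set ℝ} (h : t ⊆ t') : M.En e t ⊆ M.En e t' :=
  image_mono (prod_mono h Subset.rfl)

theorem P_mem_En (h : y.1 ∈ t) : M.P e y ∈ M.En e t := ⟨y, ⟨h, trivial⟩, rfl⟩

namespace Geo

variable (g : M.Geo)
include g

theorem shr : IsTubeShrinker M.S M.w M.δ M.C := g.ended.tube

theorem smw : ContDiff ℝ ∞ M.w := g.ended.smooth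

theorem tb : Tube M.S (prw M.w) (gradient M.w) M.w M.δ := (geos 3 _ _ _ _ g.shr g.smw).1

theorem w_zero (hp : p ∈ M.S) : M.w p = 0 := (g.shr.mem_iff p).1 hp

theorem w_lt (hp : p ∈ M.S) : |M.w p| < M.δ := by simpa [g.w_zero hp] using g.shr.pos

theorem pr_self (hp : p ∈ M.S) : prw M.w p = p := by simp [prw, g.w_zero hp]

theorem isClosed_S : IsClosed M.S := by
  have : M.S = {x | M.w x = 0} := Set.ext g.shr.mem_iff
  rw [this]
  exact isClosed_eq g.smw.continuous continuous_const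

theorem pos (hy : M.R < y.1) : 1 < y.1 := g.one.1.trans_lt hy

theorem zero_mem_O (hy : M.R < y.1) : (y, 0) ∈ M.O := ⟨hy, by simpa using g.shr.pos⟩

theorem cdP (e : M.I) (hy : M.R < y.1) : ContDiffAt ℝ ∞ (M.P e) y := (g.cht e).sm y hy

theorem perP (e : M.I) : Per M.R (M.P e) := (g.cht e).per

theorem pc (e : M.I) (hy : M.R < y.1) : Pc M.S (M.P e) y :=
  ⟨g.cdP e hy, (ev_ht hy).mono (g.mem e), fun v hv => by simpa [hv] using (g.cht e).lo y hy v⟩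

theorem norm_nu (hp : p ∈ M.S) : ‖gradient M.w p‖ = 1 := g.shr.norm_grad p (g.w_lt hp)

theorem pr_Ph (e : M.I) (ha : a ∈ M.O) : prw M.w (M.Ph e a) = M.P e a.1 :=
  (g.tb.ray _ (g.mem e _ ha.1) _ ha.2).1

theorem w_Ph (e : M.I) (ha : a ∈ M.O) : M.w (M.Ph e a) = a.2 :=
  (g.tb.ray _ (g.mem e _ ha.1) _ ha.2).2

theorem eq_Ph (hx : |M.w x| < M.δ) (h : prw M.w x = M.P e y) : x = M.Ph e (y, M.w x) := by
  rw [Ph, ← h]
  exact (g.tb.foot x hx).2

theorem cdPh (e : M.I) (ha : M.R < a.1.1) : ContDiffAt ℝ ∞ (M.Ph e) a := by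
  have h1 : ContDiffAt ℝ ∞ (fun b : (ℝ × ℝ) × ℝ => M.P e b.1) a :=
    (g.cdP e ha).comp a contDiffAt_fst
  exact h1.add (contDiffAt_snd.smul (g.tb.snu.contDiffAt.comp a h1))

/-- the derivative of the chart of the tube is bounded below -/
theorem lo_Ph (e : M.I) (ha : a ∈ M.O) (v : (ℝ × ℝ) × ℝ) :
    fderiv ℝ (prw M.w) (M.Ph e a) (fderiv ℝ (M.Ph e) a v) = fderiv ℝ (M.P e) a.1 v.1 ∧
      ⟪gradient M.w (M.Ph e a), fderiv ℝ (M.Ph e) a v⟫ = v.2 := by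
  have d := ((g.cdPh e ha.1).differentiableAt (by simp)).hasFDerivAt
  have o := isOpen_O.mem_nhds ha
  have h1 := ((g.tb.spr.differentiable (by simp) _).hasFDerivAt.comp a d).congr_of_eventuallyEq
    (f₁ := fun b : (ℝ × ℝ) × ℝ => M.P e b.1)
    (mem_of_superset o fun b hb => (g.pr_Ph e hb).symm)
  have h2 := ((g.smw.differentiable (by simp) _).hasFDerivAt.comp a d).congr_of_eventuallyEq
    (f₁ := fun b : (ℝ × ℝ) × ℝ => b.2) (mem_of_superset o fun b hb => (g.w_Ph e hb).symm)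
  have h3 := ((g.cdP e ha.1).differentiableAt (by simp)).hasFDerivAt.comp a hasFDerivAt_fst
  rw [inner_gradient]
  exact ⟨congrArg (· v) (h1.unique h3), congrArg (· v) (h2.unique hasFDerivAt_snd)⟩

theorem loc (e : M.I) : Loc ∞ (M.Ph e) M.O :=
  ⟨by simp, by simp, isOpen_O, fun a ha => g.cdPh e ha.1, fun a ha v hv => by
    obtain ⟨h1, h2⟩ := g.lo_Ph e ha v
    rw [hv, map_zero] at h1
    rw [hv, inner_zero_right] at h2
    exact Prod.ext ((g.pc e ha.1).inj _ h1.symm) h2.symm⟩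

theorem isOpen_tube (e : M.I) : IsOpen (M.Ph e '' M.O) := (g.loc e).isOpen_image

omit [NormedAddCommGroup V] in
theorem eq_of_P (h : Per M.R F) {y' : ℝ × ℝ} (hy : M.R < y.1) (hy' : M.R < y'.1)
    (k : M.P e y = M.P e y') : F y = F y' := by
  obtain ⟨h1, j, h2⟩ := (g.cht e).fib y y' hy hy' k
  rw [show y' = (y.1, y.2 + j * (2 * π)) from Prod.ext h1 h2, h.int hy]

omit [NormedAddCommGroup V] in
theorem fib (e : M.I) (h : Per M.R F) : Fib (M.Ph e) M.O fun a => F a.1 := fun a ha b hb k =>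
  g.eq_of_P (e := e) h ha.1 hb.1 (by rw [← g.pr_Ph e ha, k, g.pr_Ph e hb])

theorem lift_Ph (h : Per M.R F) (ha : a ∈ M.O) : M.lift e F (M.Ph e a) = F a.1 := by
  have k : ∃ b ∈ M.O, M.Ph e b = M.Ph e a := ⟨a, ha, rfl⟩
  exact (dif_pos k).trans (g.fib e h _ k.choose_spec.1 _ ha k.choose_spec.2)

theorem lift_P (h : Per M.R F) (hy : M.R < y.1) : M.lift e F (M.P e y) = F y := by
  rw [← Ph_zero, g.lift_Ph h (g.zero_mem_O hy)]

theorem lift_P_ev (h : Per M.R F) (hy : M.R < y.1) :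
    (fun q => M.lift e F (M.P e q)) =ᶠ[𝓝 y] F := (ev_ht hy).mono fun _ hq => g.lift_P h hq

theorem mem_tube : x ∈ M.Ph e '' M.O ↔ |M.w x| < M.δ ∧ prw M.w x ∈ M.En e (Ioi M.R) := by
  constructor
  · rintro ⟨a, ha, rfl⟩
    rw [g.w_Ph e ha, g.pr_Ph e ha]
    exact ⟨ha.2, P_mem_En ha.1⟩
  · rintro ⟨h1, y, hy, h2⟩
    exact ⟨(y, M.w x), ⟨hy.1, h1⟩, (g.eq_Ph h1 h2.symm).symm⟩

/-- lifts are constant along the normals -/
theorem lift_pr (h : Per M.R F) (hx : |M.w x| < M.δ) :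
    M.lift e F (prw M.w x) = M.lift e F x := by
  have hp := (g.tb.foot x hx).1
  by_cases k : prw M.w x ∈ M.En e (Ioi M.R)
  · obtain ⟨y, hy, h2⟩ := k
    rw [← h2, g.lift_P h hy.1, g.eq_Ph hx h2.symm, g.lift_Ph h (a := (y, M.w x)) ⟨hy.1, hx⟩]
  · rw [lift_of_notMem fun j => k (g.mem_tube.1 j).2,
      lift_of_notMem fun j => k (g.pr_self hp ▸ (g.mem_tube.1 j).2)]

theorem lift_off (hx : M.δ ≤ |M.w x|) : M.lift e F x = 0 :=
  lift_of_notMem fun j => (g.mem_tube.1 j).1.not_ge hx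

theorem P_nhds (hy : M.R < y.1) {N : Set ((ℝ × ℝ) × ℝ)} (hN : N ∈ 𝓝 (y, 0)) :
    M.Ph e '' (N ∩ M.O) ∈ 𝓝 (M.P e y) := by
  rw [← Ph_zero]
  exact (g.loc e).image_mem (g.zero_mem_O hy)
    (inter_mem hN (isOpen_O.mem_nhds (g.zero_mem_O hy)))

/-- the other ends -/
theorem lift_other (h : e ≠ e') (hy : M.R < y.1) : M.lift e F =ᶠ[𝓝 (M.P e' y)] fun _ => 0 := by
  filter_upwards [g.P_nhds hy univ_mem]
  rintro _ ⟨a, ha, rfl⟩
  refine lift_of_notMem fun j => ?_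
  obtain ⟨q, hq, k⟩ := (g.mem_tube.1 j).2
  exact h (g.dis _ _ _ _ hq.1 ha.2.1 (k.trans (g.pr_Ph e' ha.2)))

theorem lift_congr_ev (hF : Per M.R F) (hG : Per M.R G) (hy : M.R < y.1) (h : F =ᶠ[𝓝 y] G) :
    M.lift e F =ᶠ[𝓝 (M.P e y)] M.lift e G := by
  filter_upwards [g.P_nhds hy (continuousAt_fst.eventually (p := fun q => F q = G q) h)]
  rintro _ ⟨a, ha, rfl⟩
  rw [g.lift_Ph hF ha.2, g.lift_Ph hG ha.2]
  exact ha.1

/-- the charts are open maps into the surface -/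
theorem image_nhds (hy : M.R < y.1) {N : Set (ℝ × ℝ)} (hN : N ∈ 𝓝 y) :
    M.P e '' N ∈ 𝓝[M.S] (M.P e y) := by
  filter_upwards [mem_nhdsWithin_of_mem_nhds
    (g.P_nhds hy (continuousAt_fst.preimage_mem_nhds hN)), self_mem_nhdsWithin]
  rintro _ ⟨a, ha, rfl⟩ k
  exact ⟨a.1, ha.1, by rw [← g.pr_Ph e ha.2, g.pr_self k]⟩

theorem ev_S (hy : M.R < y.1) {r : E3 → Prop} (h : ∀ᶠ q in 𝓝 y, r (M.P e q)) :
    ∀ᶠ x in 𝓝[M.S] (M.P e y), r x := by
  filter_upwards [g.image_nhds hy h]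
  rintro _ ⟨q, hq, rfl⟩
  exact hq

theorem En_nhds (hy : M.R < y.1) (ht : t ∈ 𝓝 y.1) : M.En e t ∈ 𝓝[M.S] (M.P e y) :=
  g.image_nhds hy (prod_mem_nhds ht univ_mem)

theorem En_sub (ht : t ⊆ Ioi M.R) : M.En e t ⊆ M.S := by
  rintro _ ⟨y, hy, rfl⟩
  exact g.mem e y (ht hy.1)

theorem mem_En (ht : t ⊆ Ioi M.R) (hy : M.R < y.1) : M.P e y ∈ M.En e t ↔ y.1 ∈ t :=
  ⟨fun ⟨q, hq, k⟩ => ((g.cht e).fib q y (ht hq.1) hy k).1 ▸ hq.1, P_mem_En⟩

theorem notMem_En (h : e ≠ e') (ht : t ⊆ Ioi M.R) (hy : M.R < y.1) : M.P e' y ∉ M.En e t :=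
  fun ⟨_, hq, k⟩ => h (g.dis _ _ _ _ (ht hq.1) hy k)

theorem En_eq (ht : t ⊆ Ioi M.R) : M.En e t = M.P e '' (t ×ˢ Ico 0 (2 * π)) := by
  refine Subset.antisymm ?_ (image_mono (prod_mono Subset.rfl (subset_univ _)))
  rintro _ ⟨y, hy, rfl⟩
  obtain ⟨θ, h1, h2⟩ := (g.perP e).red (ht hy.1) y.2
  exact ⟨(y.1, θ), ⟨hy.1, h1⟩, h2⟩

theorem injOn (ht : t ⊆ Ioi M.R) : InjOn (M.P e) (t ×ˢ Ico 0 (2 * π)) := fun y hy q hq k => by
  obtain ⟨h1, j, h2⟩ := (g.cht e).fib y q (ht hy.1) (ht hq.1) k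
  have h3 : j = 0 := by
    have a1 : (j : ℝ) < 1 := by nlinarith [hy.2.1, hq.2.2, Real.pi_pos]
    have a2 : (-1 : ℝ) < j := by nlinarith [hy.2.2, hq.2.1, Real.pi_pos]
    have : j < 1 := by exact_mod_cast a1
    have : -1 < j := by exact_mod_cast a2
    omega
  exact Prod.ext h1.symm (by simpa [h3] using h2.symm)

theorem contP (ht : t ⊆ Ioi M.R) : ContinuousOn (M.P e) (t ×ˢ univ) := fun _ hy =>
  (g.cdP e (ht hy.1)).continuousAt.continuousWithinAt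

theorem isCompact_En (hc : IsCompact t) (ht : t ⊆ Ioi M.R) : IsCompact (M.En e t) := by
  have : M.En e t = M.P e '' (t ×ˢ Icc 0 (2 * π)) :=
    Subset.antisymm ((g.En_eq ht).trans_subset
      (image_mono (prod_mono Subset.rfl Ico_subset_Icc_self)))
      (image_mono (prod_mono Subset.rfl (subset_univ _)))
  rw [this]
  exact (hc.prod isCompact_Icc).image_of_continuousOn
    ((g.contP ht).mono (prod_mono Subset.rfl (subset_univ _)))

theorem isClosed_En (hc : IsClosed t) (ht : t ⊆ Ioi M.R) : IsClosed (M.En e t) := by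
  refine isClosed_of_closure_subset fun x hx => ?_
  have h1 : IsCompact (t ∩ Icc M.R (‖x‖ + 1)) := isCompact_Icc.inter_left hc
  have h2 := (g.isCompact_En (e := e) h1 (inter_subset_left.trans ht)).isClosed
  refine En_mono inter_subset_left (h2.closure_subset ?_)
  refine closure_mono ?_ (isOpen_ball.inter_closure ⟨mem_ball_self one_pos, hx⟩)
  rintro _ ⟨k, y, hy, rfl⟩
  have := norm_sub_norm_le (M.P e y) x
  exact P_mem_En ⟨hy.1, (ht hy.1).le, by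
    linarith [((g.cht e).rad y (ht hy.1)).1, mem_ball_iff_norm.1 k]⟩

theorem norm_En (ht : t ⊆ Ioi M.R) (hp : p ∈ M.En e t) : ∃ z ∈ t, z ≤ ‖p‖ ∧ ‖p‖ ≤ z + 1 / 8 := by
  obtain ⟨y, hy, rfl⟩ := hp
  exact ⟨y.1, hy.1, (g.cht e).rad y (ht hy.1)⟩

/-- far points lie on the ends -/
theorem far (hc : M.R ≤ c) (hp : p ∈ M.S) (h : c + 1 / 8 < ‖p‖) :
    ∃ e, ∃ y : ℝ × ℝ, c < y.1 ∧ y.1 ≤ ‖p‖ ∧ M.P e y = p := by
  obtain ⟨e, y, hy, rfl⟩ := g.cov p hp (by linarith)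
  have := (g.cht e).rad y hy
  exact ⟨e, y, by linarith, this.1, rfl⟩

/-- a lift vanishes near the points of the tube which do not lie over its support -/
theorem lift_ev_zero (hc : IsClosed t) (ht : t ⊆ Ioi M.R)
    (h : ∀ y : ℝ × ℝ, M.R < y.1 → y.1 ∉ t → F y = 0) (hx : prw M.w x ∉ M.En e t) :
    M.lift e F =ᶠ[𝓝 x] fun _ => 0 := by
  filter_upwards [g.tb.spr.continuous.continuousAt.preimage_mem_nhds
    ((g.isClosed_En hc ht).isOpen_compl.mem_nhds hx)] with x' k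
  simp only [lift, desc]
  split_ifs with j
  · refine h _ j.choose_spec.1.1 fun i => k ?_
    rw [← j.choose_spec.2, g.pr_Ph e j.choose_spec.1]
    exact P_mem_En i
  · rfl

theorem lift_ev_zero' (hc : IsClosed t) (ht : t ⊆ Ioi M.R)
    (h : ∀ y : ℝ × ℝ, M.R < y.1 → y.1 ∉ t → F y = 0) (hp : p ∈ M.S) (hx : p ∉ M.En e t) :
    M.lift e F =ᶠ[𝓝 p] fun _ => 0 := g.lift_ev_zero hc ht h (by rwa [g.pr_self hp])

theorem lift_cont (h : Per M.R F) (ha : a ∈ M.O) (hc : ContinuousAt F a.1) :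
    ContinuousAt (M.lift e F) (M.Ph e a) := by
  obtain ⟨k, k1, k2, k3, -⟩ := (g.loc e).inv ha
  have c1 : ContinuousAt (fun x => F (k x).1) (M.Ph e a) :=
    ContinuousAt.comp (g := F) (by rwa [k2]) k1.continuousAt.fst
  exact c1.congr (k3.mono fun x hx => by
    rw [← hx.2, g.lift_Ph (e := e) h hx.1, hx.2])

variable [NormedSpace ℝ V] {k : WithTop ℕ∞}

theorem lift_cd_Ph (h : Per M.R F) (ha : a ∈ M.O) (hk : k ≤ ∞) (hc : ContDiffAt ℝ k F a.1) :
    ContDiffAt ℝ k (M.lift e F) (M.Ph e a) :=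
  (g.loc e).contDiffAt_desc (g.fib e h) ha hk (hc.comp a contDiffAt_fst)

theorem lift_cd (h : Per M.R F) (hy : M.R < y.1) (hk : k ≤ ∞) (hc : ContDiffAt ℝ k F y) :
    ContDiffAt ℝ k (M.lift e F) (M.P e y) := by
  rw [← Ph_zero]
  exact g.lift_cd_Ph h (g.zero_mem_O hy) hk hc

/-- a function which is cut off at the inner boundary has a smooth lift on the tube -/
theorem lift_cd_tube (h : Per M.R F) (hc : IsClosed t) (ht : t ⊆ Ioi M.R)
    (h0 : ∀ y : ℝ × ℝ, M.R < y.1 → y.1 ∉ t → F y = 0) (hk : k ≤ ∞)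
    (hF : ∀ y : ℝ × ℝ, y.1 ∈ t → ContDiffAt ℝ k F y) (hx : |M.w x| < M.δ) :
    ContDiffAt ℝ k (M.lift e F) x := by
  by_cases j : prw M.w x ∈ M.En e t
  · obtain ⟨y, hy, j⟩ := j
    rw [g.eq_Ph hx j.symm]
    exact g.lift_cd_Ph h (a := (y, M.w x)) ⟨ht hy.1, hx⟩ hk (hF y hy.1)
  · exact contDiffAt_const.congr_of_eventuallyEq (g.lift_ev_zero hc ht h0 j)

/-- the global version: `η` is a cut-off function of the distance -/
theorem glift_cd {η : ℝ → ℝ} (hη : ContDiff ℝ k η) (η0 : ∀ s, M.δ / 2 ≤ |s| → η s = 0)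
    (h : Per M.R F) (hc : IsClosed t) (ht : t ⊆ Ioi M.R)
    (h0 : ∀ y : ℝ × ℝ, M.R < y.1 → y.1 ∉ t → F y = 0) (hk : k ≤ ∞)
    (hF : ∀ y : ℝ × ℝ, y.1 ∈ t → ContDiffAt ℝ k F y) :
    ContDiff ℝ k fun x => η (M.w x) • M.lift e F x := contDiff_iff_contDiffAt.2 fun x => by
  by_cases hx : |M.w x| < M.δ
  · exact (hη.comp (g.smw.of_le hk)).contDiffAt.smul (g.lift_cd_tube h hc ht h0 hk hF hx)
  · refine (contDiffAt_const (c := 0)).congr_of_eventuallyEq ?_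
    have : M.δ / 2 < |M.w x| := by linarith [g.shr.pos, not_lt.1 hx]
    filter_upwards [g.smw.continuous.abs.continuousAt.eventually (lt_mem_nhds this)] with x' j
    rw [η0 _ j.le, zero_smul]

omit [NormedSpace ℝ V] in
/-- the support of a lift -/
theorem lift_norm (h0 : ∀ y : ℝ × ℝ, M.R < y.1 → y.1 ∉ t → F y = 0)
    (hx : M.lift e F x ≠ 0) : ∃ z ∈ t, z - M.δ < ‖x‖ ∧ ‖x‖ < z + 1 / 8 + M.δ := by
  simp only [lift, desc] at hx
  split_ifs at hx with j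
  · have h1 := j.choose_spec
    generalize j.choose = b at hx h1
    have h2 := (g.cht e).rad b.1 h1.1.1
    have h3 : ‖x - M.P e b.1‖ < M.δ := by
      rw [← h1.2, Ph, add_sub_cancel_left, norm_smul, g.norm_nu (g.mem e _ h1.1.1), mul_one]
      exact h1.1.2
    have h4 := abs_le.1 (abs_norm_sub_norm_le x (M.P e b.1))
    exact ⟨b.1.1, by_contra fun i => hx (h0 _ h1.1.1 i), by linarith, by linarith⟩
  · exact absurd rfl hx

theorem C0 : 0 ≤ M.C ∨ IsEmpty M.I := by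
  rcases isEmpty_or_nonempty M.I with h | ⟨⟨e⟩⟩
  · exact .inr h
  · exact .inl ((norm_nonneg _).trans
      (g.shr.hess_le _ (g.w_lt (g.mem e (M.R + 1, 0) (lt_add_one _)))))

theorem fderiv_Ph (e : M.I) (hy : M.R < y.1) (v : (ℝ × ℝ) × ℝ) : fderiv ℝ (M.Ph e) (y, 0) v =
    fderiv ℝ (M.P e) y v.1 + v.2 • gradient M.w (M.P e y) := by
  have h1 := HasFDerivAt.comp (f := fun b : (ℝ × ℝ) × ℝ => b.1) (y, 0)
    ((g.cdP e hy).differentiableAt (by simp)).hasFDerivAt hasFDerivAt_fst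
  have h2 := (g.tb.snu.differentiable (by simp) _).hasFDerivAt.comp (y, (0 : ℝ)) h1
  have h3 : HasFDerivAt (M.Ph e) _ (y, 0) := h1.fun_add (hasFDerivAt_snd.fun_smul h2)
  rw [h3.fderiv]
  simp

theorem nu_perp (e : M.I) (hy : M.R < y.1) (v : ℝ × ℝ) :
    ⟪gradient M.w (M.P e y), fderiv ℝ (M.P e) y v⟫ = 0 := by
  have := (g.lo_Ph e (g.zero_mem_O hy) (v, 0)).2
  rwa [g.fderiv_Ph e hy, Ph_zero, zero_smul, add_zero] at this

/-- **bounds for the jets of a lift** at the points of the surface -/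
theorem lift_j2 : ∃ K : ℝ, 1 ≤ K ∧ ∀ (e : M.I) (F : ℝ × ℝ → V) (y : ℝ × ℝ) (a b c : ℝ),
    Per M.R F → M.R < y.1 → J2 F y a b c →
      J2 (M.lift e F) (M.P e y) a (K * b) (K * (c + b * y.1)) := by
  have K1 := g.one.2
  refine ⟨M.K ^ 4 * (1 + 2 * |M.C|), by
    nlinarith [one_le_pow₀ (n := 4) K1, abs_nonneg M.C], fun e F y a b c h hy hj => ?_⟩
  have y1 := g.pos hy
  have f1 : J2 (fun q : (ℝ × ℝ) × ℝ => q.1) (y, 0) ‖y‖ 1 0 :=
    ⟨contDiffAt_fst, le_rfl, by rw [fderiv_fst]; exact ContinuousLinearMap.norm_fst_le .., by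
      rw [show (fun q : (ℝ × ℝ) × ℝ => q.1) = ContinuousLinearMap.fst ℝ _ _ from rfl, d2_clm]
      exact ContinuousLinearMap.opNorm_zero.le⟩
  have f2 : J2 (fun q : (ℝ × ℝ) × ℝ => q.2) (y, 0) 0 1 0 :=
    ⟨contDiffAt_snd, by simp, by rw [fderiv_snd]; exact ContinuousLinearMap.norm_snd_le .., by
      rw [show (fun q : (ℝ × ℝ) × ℝ => q.2) = ContinuousLinearMap.snd ℝ _ _ from rfl, d2_clm]
      exact ContinuousLinearMap.opNorm_zero.le⟩
  have hp := g.mem e y hy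
  have p1 := J2.comp (f := fun q : (ℝ × ℝ) × ℝ => q.1) ((g.cht e).j2 y hy) f1
  have n1 : J2 (gradient M.w) (M.P e y) 1 |M.C| _ :=
    (J2.self (g.tb.snu.contDiffAt.of_le (by norm_cast))).mono (g.norm_nu hp).le
      ((g.shr.hess_le _ (g.w_lt hp)).trans (le_abs_self _)) le_rfl
  have p2 := p1.add (f2.smul (J2.comp (f := fun q : (ℝ × ℝ) × ℝ => M.P e q.1) n1 p1))
  have lo : ∀ v, ‖v‖ ≤ M.K * ‖fderiv ℝ (M.Ph e) (y, 0) v‖ := fun v => by
    rw [g.fderiv_Ph e hy]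
    have s := norm_add_sq_real (fderiv ℝ (M.P e) y v.1) (v.2 • gradient M.w (M.P e y))
    rw [inner_smul_right, real_inner_comm, g.nu_perp e hy, norm_smul, g.norm_nu hp] at s
    generalize fderiv ℝ (M.P e) y v.1 + v.2 • gradient M.w (M.P e y) = u at s
    have a1 : ‖fderiv ℝ (M.P e) y v.1‖ ≤ ‖u‖ := abs_le_of_sq_le_sq' (by nlinarith) (norm_nonneg u) |>.2
    have a2 : ‖v.2‖ ≤ ‖u‖ := abs_le_of_sq_le_sq' (by nlinarith) (norm_nonneg u) |>.2
    exact norm_prod_le_iff.2 ⟨((g.cht e).lo y hy v.1).trans (by gcongr),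
      by nlinarith [norm_nonneg u]⟩
  have := (g.loc e).j2_desc (by norm_cast) (g.fib e h) (g.zero_mem_O hy) (by linarith) lo p2.h2
    (J2.comp (f := fun q : (ℝ × ℝ) × ℝ => q.1) hj f1)
  rw [Ph_zero] at this
  have b0 := hj.b0
  have c0 := hj.c0
  have C0 := abs_nonneg M.C
  have k2 : M.K ^ 2 ≤ M.K ^ 4 := pow_le_pow_right₀ K1 (by norm_num)
  have k1 : M.K ≤ M.K ^ 4 := le_self_pow₀ K1 (by norm_num)
  refine this.mono le_rfl ?_ ?_
  · nlinarith [mul_nonneg (mul_nonneg b0 C0) (pow_nonneg (zero_le_one.trans K1) 4)]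
  · nlinarith [mul_nonneg (mul_nonneg c0 C0) (pow_nonneg (zero_le_one.trans K1) 4)]

end Geo

end Mod

end Vale.Agent.P218T
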