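import Vale.Agent.P218T.Geo

/-! The normalised jets of a conical end. -/

open MeasureTheory Set Filter Topology
open scoped ContDiff Real

noncomputable section

namespace Vale.Agent.P218T

open Vale.Agent.P218N (kD kH kE)
open Vale.Agent.P218W

namespace Cw

variable {g : ℝ × ℝ → ℝ} {F G A B A₁ A₂ B₁ B₂ : ℝ × ℝ → ℂ} {U : Set ℝ}

/-- the jet from the derivatives -/
theorem jet_eq (hU : IsOpen U) (h : Der U F A B) (hA : Der U A A₁ A₂) (hB : Der U B B₁ B₂)
    {p : ℝ × ℝ} (hp : p.1 ∈ U) (k : Fin 6) :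
    jet F k p = ![F p, B p, B₂ p, A p, B₁ p, A₁ p] k := by
  have e : fderiv ℝ (fderiv ℝ F) p = DL ∘L (DD (A₁ p) (A₂ p)).prod (DD (B₁ p) (B₂ p)) :=
    ((DL.hasFDerivAt.comp p ((hA p hp).prodMk (hB p hp))).congr_of_eventuallyEq (mem_of_superset
      ((hU.preimage continuous_fst).mem_nhds hp) fun q hq => (h q hq).fderiv)).fderiv
  fin_cases k <;> simp [jet, e, (h p hp).fderiv, DL_apply]

/-- a directional derivative -/
def dv (v : ℝ × ℝ) (g : ℝ × ℝ → ℝ) (y : ℝ × ℝ) : ℝ := fderiv ℝ g y v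

theorem dec_dv (h : Decays g) {v : ℝ × ℝ} (hv : ‖v‖ ≤ 1) : Decays (dv v g) := by
  have s : ContDiff ℝ ∞ (fderiv ℝ g) := h.smooth.fderiv_right (m := ∞) le_rfl
  refine ⟨s.clm_apply contDiff_const, fun z θ => ?_, fun k ε e => ?_⟩
  · have : (fun y : ℝ × ℝ => g (y + (0, 2 * π))) = g := funext fun y => by
      simpa [Prod.add_def] using h.per y.1 y.2
    rw [dv, dv, ← congrArg (fderiv ℝ · (z, θ)) this, fderiv_comp_add_right]
    simp
  · obtain ⟨R, hR⟩ := h.lim (k + 1) ε e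
    refine ⟨R, fun y hy => (norm_iteratedFDeriv_clm_apply_const s.contDiffAt
      (by exact_mod_cast le_top)).trans ?_⟩
    rw [norm_iteratedFDeriv_fderiv]
    exact (mul_le_of_le_one_left (norm_nonneg _) hv).trans (hR y hy)

theorem dec_s (h : Decays g) : Decays (dv (1, 0) g) := dec_dv h (by simp)
theorem dec_t (h : Decays g) : Decays (dv (0, 1) g) := dec_dv h (by simp)

/-- the function in the variable `z = e^s` -/
def L (g : ℝ × ℝ → ℝ) (y : ℝ × ℝ) : ℂ := g (Real.log y.1, y.2)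

theorem der_L (h : Decays g) :
    Der (Ioi 0) (L g) (fun y => (y.1 : ℂ)⁻¹ * L (dv (1, 0) g) y) (L (dv (0, 1) g)) := fun p hp => by
  have d := (((Real.hasDerivAt_log (ne_of_gt hp)).hasFDerivAt.comp p hasFDerivAt_fst).prodMk
    hasFDerivAt_snd)
  refine (Complex.ofRealCLM.hasFDerivAt.comp p
    ((h.smooth.differentiable (by simp) _).hasFDerivAt.comp p d)).congr_fderiv (DD_ext fun v => ?_)
  have e : ((v.1 * p.1⁻¹, v.2) : ℝ × ℝ) = (v.1 * p.1⁻¹) • (1, 0) + v.2 • (0, 1) := by simp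
  simp only [ContinuousLinearMap.comp_apply, ContinuousLinearMap.prod_apply,
    ContinuousLinearMap.coe_fst', ContinuousLinearMap.coe_snd',
    ContinuousLinearMap.toSpanSingleton_apply, smul_eq_mul, e, map_add, map_smul, L, dv]
  simp
  ring

theorem der_id : Der U (fun y => (y.1 : ℂ)) (fun _ => 1) fun _ => 0 :=
  der_z fun _ _ => Complex.ofRealCLM.hasDerivAt

theorem jet_uS (h : Decays g) {y : ℝ × ℝ} (hy : 0 < y.1) : jk y.1 (fun i => jet (uS g) i y) =
    ![L g y, L (dv (0, 1) g) y, L (dv (0, 1) (dv (0, 1) g)) y, L g y + L (dv (1, 0) g) y,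
      L (dv (0, 1) g) y + L (dv (1, 0) (dv (0, 1) g)) y,
      L (dv (1, 0) g) y + L (dv (1, 0) (dv (1, 0) g)) y, y.1 ^ 2 * L (dv (1, 0) g) y] := by
  have e : uS g = fun y => y.1 * L g y := funext fun y => by simp [uS, L]
  have z0 : ∀ z ∈ Ioi (0 : ℝ), (z : ℂ) ≠ 0 := fun z hz => by exact_mod_cast ne_of_gt hz
  have d : Der (Ioi 0) (uS g) (fun y => L g y + L (dv (1, 0) g) y)
      fun y => y.1 * L (dv (0, 1) g) y := (der_id.mul (der_L h)).congr isOpen_Ioi
        (fun _ _ _ => by rw [e]) (fun z hz θ => by simp [z0 z hz]) fun _ _ _ => by simp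
  have := z0 _ hy
  simp only [jk, jet_eq isOpen_Ioi d ((der_L h).add (der_L (dec_s h)))
    (der_id.mul (der_L (dec_t h))) hy]
  ext k
  fin_cases k <;> simp [e] <;> field_simp
  ring

/-- eventually bounded functions -/
def Bd : Subalgebra ℂ (ℝ × ℝ → ℂ) where
  carrier := {F | ∃ K, ∀ᶠ R in atTop, Le (Ici R) F (fun _ => 1) K}
  mul_mem' := fun ⟨_, h⟩ ⟨_, k⟩ => ⟨_, (h.and k).mono fun _ e => e.1.mul1 e.2⟩
  add_mem' := fun ⟨_, h⟩ ⟨_, k⟩ => ⟨_, (h.and k).mono fun _ e => e.1.add e.2⟩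
  algebraMap_mem' a := ⟨_, .of_forall fun _ =>
    le_z (φ := fun _ => a) (norm_nonneg a) (by simp) (by simp)⟩

/-- functions which tend to zero -/
def Sm (F : ℝ × ℝ → ℂ) : Prop := ∀ η > 0, ∀ᶠ R in atTop, Le (Ici R) F (fun _ => 1) η

theorem Sm.bd (h : Sm F) : F ∈ Bd := ⟨1, h 1 one_pos⟩

theorem Sm.add (h : Sm F) (k : Sm G) : Sm fun p => F p + G p := fun η e =>
  ((h _ (half_pos e)).and (k _ (half_pos e))).mono fun _ l => add_halves η ▸ l.1.add l.2

/-- the ideal -/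
def SmI : Ideal Bd where
  carrier := {F | Sm F.1}
  add_mem' := Sm.add
  zero_mem' η e := .of_forall fun _ => (le_zero (by simp)).mono subset_rfl (fun _ _ => le_rfl) e.le
  smul_mem' := fun ⟨_, K, h⟩ F k η e => (h.and (k (η / (|K| + 1)) (by positivity))).mono
    fun _ l => (l.1.mul1 l.2).mono subset_rfl (fun _ _ => le_rfl) (by
      rw [← mul_div_assoc, div_le_iff₀ (by positivity)]
      nlinarith [le_abs_self K])

theorem Sm.inv (h : Sm F) {c : ℂ} (hc : c ≠ 0) : (fun p => (c + F p)⁻¹) ∈ Bd ∧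
    ∀ᶠ R in atTop, ∀ z ∈ Ici R, ∀ θ, c + F (z, θ) ≠ 0 := by
  have c0 := norm_pos_iff.2 hc
  refine ⟨⟨_, (h _ (half_pos c0)).mono fun R l => ((l.wt (ω' := fun _ => ‖c‖) (C := ‖c‖⁻¹)
    (by positivity) (by simp) (by simp [hc])).inv_add (ρ := fun _ => c) (le_of_eq (by field_simp))
      fun _ _ => hc).2.wt (C := ‖c‖⁻¹) (by positivity) (by simp) (by simp)⟩,
    (h _ c0).mono fun R l z hz θ e => ?_⟩
  have := l.apply hz θ
  rw [← neg_eq_of_add_eq_zero_right e, norm_neg] at this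
  linarith

theorem sm_L (h : Decays g) : Sm (L g) := fun η e => by
  obtain ⟨R₀, h₀⟩ := h.lim 0 (η / 16) (by positivity)
  obtain ⟨R₂, h₂⟩ := (dec_t (dec_t h)).lim 0 (η / 16) (by positivity)
  filter_upwards [eventually_gt_atTop 0, Real.tendsto_log_atTop.eventually_ge_atTop (max R₀ R₂)]
    with R R0 hR
  have l : ∀ z ∈ Ici R, max R₀ R₂ ≤ Real.log z := fun z hz => hR.trans (Real.log_le_log R0 hz)
  exact (le_of_c2 (K := η / 16) (by positivity) (by simp) (fun z _ θ => by simp [L, h.per])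
    (fun z hz => (der_L h).dt (R0.trans_le hz)) (fun z hz => (der_L (dec_t h)).dt (R0.trans_le hz))
    (fun z hz => continuous_iff_continuousAt.2 fun θ =>
      ((der_L (dec_t (dec_t h))).dt (R0.trans_le hz) θ).continuousAt)
    (fun z hz θ => by simpa [L] using h₀ (Real.log z, θ) (le_of_max_le_left (l z hz)))
    fun z hz θ => by simpa [L] using h₂ (Real.log z, θ) (le_of_max_le_right (l z hz))).mono
      subset_rfl (fun _ _ => le_rfl) (le_of_eq (by ring))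

theorem per_deriv {φ : ℝ → ℝ} (p : ∀ θ, φ (θ + 2 * π) = φ θ) (θ : ℝ) :
    deriv φ (θ + 2 * π) = deriv φ θ := by
  rw [← deriv_comp_add_const, funext p]

theorem bd_per {φ : ℝ → ℝ} (s : ContDiff ℝ ∞ φ) (p : ∀ θ, φ (θ + 2 * π) = φ θ) :
    (fun y : ℝ × ℝ => (φ y.2 : ℂ)) ∈ Bd := by
  have s1 := (contDiff_infty_iff_deriv.1 s).2
  have s2 := (contDiff_infty_iff_deriv.1 s1).2
  obtain ⟨K, hK⟩ := ((Function.Periodic.isBounded_of_continuous p (by positivity) s.continuous).union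
    (Function.Periodic.isBounded_of_continuous (per_deriv (per_deriv p)) (by positivity)
      s2.continuous)).exists_norm_le
  exact ⟨_, .of_forall fun _ => le_of_c2 (F₁ := fun y => (deriv φ y.2 : ℝ))
    (F₂ := fun y => (deriv (deriv φ) y.2 : ℝ)) ((norm_nonneg _).trans (hK _ (.inl ⟨0, rfl⟩))) (by simp)
    (fun _ _ θ => by simp [p])
    (fun _ _ θ => (s.differentiable (by simp) θ).hasDerivAt.ofReal_comp)
    (fun _ _ θ => (s1.differentiable (by simp) θ).hasDerivAt.ofReal_comp)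
    (fun _ _ => Complex.continuous_ofReal.comp s2.continuous)
    (fun _ _ θ => by simpa using hK _ (.inl ⟨θ, rfl⟩))
    fun _ _ θ => by simpa using hK _ (.inr ⟨θ, rfl⟩)⟩

theorem solve {l : ℂ} (l0 : l ≠ 0) {κ κ' : ℝ × ℝ → ℂ} {G : Fin 6 → ℝ × ℝ → ℂ} (hκ : κ ∈ Bd)
    (hκ' : κ' ∈ Bd) (sG : ∀ k, Sm (G k)) : ∃ H ∈ Bd, ∀ᶠ R in atTop, ∀ z ∈ Ici R, ∀ θ, ∀ x : ℂ,
      kE l (κ (z, θ)) (κ' (z, θ)) (G 0 (z, θ)) (G 1 (z, θ)) (G 2 (z, θ)) (G 3 (z, θ))
        (G 4 (z, θ)) (G 5 (z, θ)) x = 0 → x = H (z, θ) := by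
  obtain ⟨J, hJ⟩ : ∃ J : Fin 6 → Bd, ∀ k, (J k).1 = G k := ⟨fun k => ⟨_, (sG k).bd⟩, fun _ => rfl⟩
  lift κ to Bd using hκ
  lift κ' to Bd using hκ'
  have q : ∀ k, Ideal.Quotient.mk SmI (J k) = 0 := fun k =>
    Ideal.Quotient.eq_zero_iff_mem.2 (show Sm _ from hJ k ▸ sG k)
  have s1 : kD (algebraMap ℂ Bd l) κ (J 0) (J 1) (J 3) - algebraMap ℂ Bd l ^ 2 ∈ SmI :=
    Ideal.Quotient.eq.1 (by simp [kD, q])
  have s2 : algebraMap ℂ Bd l * (1 - κ * J 0) - algebraMap ℂ Bd l ∈ SmI :=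
    Ideal.Quotient.eq.1 (by simp [q])
  obtain ⟨i1, -⟩ := Sm.inv s1 (pow_ne_zero 2 l0)
  obtain ⟨i2, n2⟩ := Sm.inv s2 l0
  refine ⟨_, mul_mem (mul_mem (2 * kH (algebraMap ℂ Bd l) κ κ' (J 0) (J 1) (J 2) (J 3) (J 4)
    (J 5)).2 i1) i2, n2.mono fun R n z hz θ x e => ?_⟩
  have n := n z hz θ
  rw [kE, Ring.inverse_eq_inv, sub_eq_zero] at e
  simp only [kH, kD, ← hJ] at e
  have two : ((2 : Bd) : ℝ × ℝ → ℂ) (z, θ) = 2 := rfl
  simp [kH, kD, two] at n ⊢
  rw [e, ← mul_inv_rev, mul_comm _ x, mul_inv_cancel_right₀ (mul_ne_zero n.1 n.2)]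

theorem decay {f f' : ℝ → ℝ} {a K : ℝ} (d : ∀ s, HasDerivAt f (f' s) s) (l : Tendsto f atTop (𝓝 0))
    (b : ∀ s ∈ Ici a, |f' s| ≤ 2 * K * Real.exp (-2 * s)) {s : ℝ} (hs : a ≤ s) :
    |f s| ≤ K * Real.exp (-2 * s) := by
  have key : ∀ σ : ℝ, |σ| = 1 → 0 ≤ K * Real.exp (-2 * s) + σ * f s := fun σ hσ => by
    have d' : ∀ s, HasDerivAt (fun s => K * Real.exp (-2 * s) + σ * f s)
        (K * (Real.exp (-2 * s) * (-2 * 1)) + σ * f' s) s := fun s =>
      ((((hasDerivAt_id s).const_mul (-2)).exp).const_mul K).add ((d s).const_mul σ)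
    have m := antitoneOn_of_deriv_nonpos (convex_Ici a)
      (fun s _ => (d' s).continuousAt.continuousWithinAt)
      (fun s _ => (d' s).differentiableAt.differentiableWithinAt) fun s hs => by
        have := b s (interior_subset hs)
        rw [(d' s).deriv]
        linarith [le_abs_self (σ * f' s), abs_mul σ (f' s), hσ ▸ one_mul |f' s|]
    have t := ((Real.tendsto_exp_atBot.comp (tendsto_id.const_mul_atTop_of_neg
      (r := -2) (by norm_num))).const_mul K).add (l.const_mul σ)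
    simpa using le_of_tendsto t ((eventually_ge_atTop s).mono fun x hx => m hs (hs.trans hx) hx)
  exact abs_le.2 ⟨by linarith [key 1 abs_one], by linarith [key (-1) (by simp)]⟩

end Cw

open Cw in
/-- **CONW** -/
theorem conw (cj : CONJ) : CONW := by
  intro γ n g hl h
  obtain ⟨l0, -, sk, pk, -⟩ := cj γ n hl
  let G : Fin 6 → ℝ × ℝ → ℂ := ![L g, L (dv (0, 1) g), L (dv (0, 1) (dv (0, 1) g)),
    fun y => L g y + L (dv (1, 0) g) y,
    fun y => L (dv (0, 1) g) y + L (dv (1, 0) (dv (0, 1) g)) y,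
    fun y => L (dv (1, 0) g) y + L (dv (1, 0) (dv (1, 0) g)) y]
  have sG : ∀ k, Sm (G k) := fun k => by
    fin_cases k
    exacts [sm_L h, sm_L (dec_t h), sm_L (dec_t (dec_t h)), (sm_L h).add (sm_L (dec_s h)),
      (sm_L (dec_t h)).add (sm_L (dec_s (dec_t h))), (sm_L (dec_s h)).add (sm_L (dec_s (dec_s h)))]
  have eG : ∀ y : ℝ × ℝ, 0 < y.1 → ∀ k : Fin 6,
      jk y.1 (fun i => jet (uS g) i y) k.castSucc = G k y := fun y hy k => by
    rw [jet_uS h hy]
    fin_cases k <;> rfl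
  refine ⟨fun y hy => Complex.ofRealCLM.contDiff.contDiffAt.comp y (contDiffAt_fst.mul
    (h.smooth.contDiffAt.comp y ((contDiffAt_fst.log hy.ne').prodMk contDiffAt_snd))),
    fun η e => ?_, fun R₁ hE => ?_⟩
  · obtain ⟨R, R0, hR⟩ := ((eventually_gt_atTop 0).and (eventually_all.2 fun k => sG k η e)).exists
    exact ⟨R, R0, fun k => (hR k).congr fun z hz θ => eG (z, θ) (R0.trans_le hz) k⟩
  obtain ⟨H, ⟨K, hK⟩, hH⟩ := solve (l := spd γ) (by exact_mod_cast l0.ne') (bd_per sk pk)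
    (bd_per (contDiff_infty_iff_deriv.1 sk).2 (per_deriv pk)) sG
  obtain ⟨R, ⟨R0, R1⟩, hR, nR⟩ :=
    (((eventually_gt_atTop 0).and (eventually_gt_atTop R₁)).and (hK.and hH)).exists
  have b : Le (Ici R) (fun y => jk y.1 (fun i => jet (uS g) i y) 6) (fun _ => 1) K :=
    hR.congr fun z hz θ => nR z hz θ _ (by
      simp only [← eG (z, θ) (R0.trans_le hz)]
      exact hE (z, θ) (R1.trans_le hz))
  refine ⟨R, R0, K, b, fun y hy => ?_⟩
  have y0 := R0.trans_le hy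
  have := decay (f := fun s => g (s, y.2)) (f' := fun s => dv (1, 0) g (s, y.2)) (K := K)
    (fun s => (h.smooth.differentiable (by simp) _).hasFDerivAt.comp_hasDerivAt s
      ((hasDerivAt_id s).prodMk (hasDerivAt_const s y.2)))
    (Metric.tendsto_atTop.2 fun ε e => (h.lim 0 _ (half_pos e)).imp fun R k s hs => by
      simpa using (k (s, y.2) hs).trans_lt (half_lt_self e))
    (fun s hs => ?_) (Real.log_le_log R0 hy)
  · rwa [neg_mul, Real.exp_neg, show 2 * Real.log y.1 = Real.log (y.1 ^ 2) by simp,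
      Real.exp_log (by positivity)] at this
  · have := b.apply ((Real.log_le_iff_le_exp R0).1 hs) y.2
    rw [jet_uS h (Real.exp_pos s)] at this
    simp only [Matrix.cons_val, L, Real.log_exp, norm_mul, norm_pow, Complex.norm_real,
      Real.norm_eq_abs, Real.abs_exp] at this
    rw [neg_mul, Real.exp_neg, ← div_eq_mul_inv, le_div_iff₀ (Real.exp_pos _), two_mul s,
      Real.exp_add]
    nlinarith [b.M0]

end Vale.Agent.P218T
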