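import Vale.Agent.P218T.Geo
import Vale.Agent.P218N.Linp
import Vale.Agent.P218H.Geos

/-! Covariance of the shrinker operator, the equation of the surface and its linearisation in a
chart. -/

open Filter Topology
open scoped ContDiff RealInnerProductSpace

noncomputable section

namespace Vale.Agent.P218T

open Vale.Agent.P218.H63 (IsTubeShrinker)
open Vale.Agent.P218B (gr2_eq inner_eq_dt)
open Vale.Agent.P218N hiding E3 eR
open Vale.Agent.P218N.Lp
open Vale.Agent.P218W (jet)

namespace Cv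

/-- the inclusion of the plane -/
def io : ℝ × ℝ →L[ℝ] E3 :=
  (ContinuousLinearMap.fst ℝ ℝ ℝ).smulRight (EuclideanSpace.single 0 1) +
    (ContinuousLinearMap.snd ℝ ℝ ℝ).smulRight (EuclideanSpace.single 1 1)

/-- the projection to the plane -/
def pr : E3 →L[ℝ] ℝ × ℝ := (EuclideanSpace.proj 0).prod (EuclideanSpace.proj 1)

theorem io0 : io (1, 0) = EuclideanSpace.single 0 1 := by simp [io]

theorem io1 : io (0, 1) = EuclideanSpace.single 1 1 := by simp [io]

theorem pr_io (q : ℝ × ℝ) : pr (io q) = q := by simp [io, pr]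

theorem io2 (q : ℝ × ℝ) : io q 2 = 0 := by simp [io]

variable {V : Type*} [NormedAddCommGroup V] [NormedSpace ℝ V] {y : ℝ × ℝ}

theorem res1 {F : E3 → V} (h : DifferentiableAt ℝ F (io y)) (v : ℝ × ℝ) :
    fderiv ℝ (fun q => F (io q)) y v = fderiv ℝ F (io y) (io v) :=
  DFunLike.congr_fun (h.hasFDerivAt.comp y io.hasFDerivAt).fderiv v

theorem res2 {F : E3 → V} (h : ContDiffAt ℝ 2 F (io y)) (u v : ℝ × ℝ) :
    fderiv ℝ (fderiv ℝ fun q => F (io q)) y u v =
      fderiv ℝ (fun x => fderiv ℝ F x (io v)) (io y) (io u) := by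
  have d : DifferentiableAt ℝ (fderiv ℝ fun q => F (io q)) y :=
    ((h.comp y io.contDiff.contDiffAt).fderiv_right (m := 1) le_rfl).differentiableAt one_ne_zero
  have e : (fun q => fderiv ℝ (fun q => F (io q)) q v) =ᶠ[𝓝 y]
      fun q => fderiv ℝ F (io q) (io v) := by
    filter_upwards [io.continuous.continuousAt.eventually (h.eventually (by simp))] with q hq
    exact res1 (hq.differentiableAt (by norm_num)) v
  rw [← res1 (((h.fderiv_right (m := 1) le_rfl).clm_apply contDiffAt_const).differentiableAt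
    one_ne_zero), ← e.fderiv_eq, fderiv_clm_apply d (differentiableAt_const _)]
  simp

/-- the jet of the restriction to the plane -/
theorem jv_io {X : E3 → V3} (h : ContDiffAt ℝ 2 X (io y)) : jv (fun q => X (io q)) y =
    ![X (io y), pd X (io y) 1, pd (pd X) (io y) 1 1, pd X (io y) 0, pd (pd X) (io y) 0 1,
      pd (pd X) (io y) 0 0] := by
  have d := h.differentiableAt (by norm_num)
  have d1 := (cd_pd h (k := 1) le_rfl).differentiableAt one_ne_zero
  have e : ∀ c b i, pd (pd X) (io y) c b i = pd (fun x => pd (fun x => X x i) x b) (io y) c :=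
    fun c b i => by
      rw [pd_apply d1, pd_apply (differentiableAt_pi.1 d1 b)]
      refine congrFun (pd_congr ?_) c
      filter_upwards [h.eventually (by simp)] with x hx
      exact pd_apply (hx.differentiableAt (by norm_num)) b i
  have r1 := fun i => res1 (differentiableAt_pi.1 d i)
  have r2 := fun i => res2 (contDiffAt_pi.1 h i)
  funext k i
  fin_cases k
  · rfl
  · exact (r1 i _).trans (by rw [io1]; exact (pd_apply d 1 i).symm)
  · exact (r2 i _ _).trans (by rw [io1]; exact (e 1 1 i).symm)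
  · exact (r1 i _).trans (by rw [io0]; exact (pd_apply d 0 i).symm)
  · exact (r2 i _ _).trans (by rw [io0, io1]; exact (e 0 1 i).symm)
  · exact (r2 i _ _).trans (by rw [io0]; exact (e 0 0 i).symm)

/-- a linear combination of the rows -/
def lc (a : V3) (A : Fin 3 → V3) : V3 := a 0 • A 0 + a 1 • A 1 + a 2 • A 2

theorem cr_lc (a b : V3) (A : Fin 3 → V3) : cr (lc a A) (lc b A) = nn A (cr a b) := by
  apply ext3 <;>
  · simp only [lc, nn, Pi.add_apply, Pi.smul_apply, smul_eq_mul, cr0, cr1, cr2]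
    ring

theorem cr_lc2 (a b : V3) (A B : Fin 3 → V3) :
    cr (lc a A) (lc b B) - cr (lc b A) (lc a B) = kk A B (cr a b) := by
  apply ext3 <;>
  · simp only [lc, kk, Pi.add_apply, Pi.sub_apply, Pi.smul_apply, smul_eq_mul, cr0, cr1, cr2]
    ring

theorem jv_one {X : E3 → V3} {P : ℝ × ℝ → E3} (hP : DifferentiableAt ℝ P y)
    (hX : DifferentiableAt ℝ X (P y)) :
    jv (fun q => X (P q)) y 3 = lc (cx (fderiv ℝ P y (1, 0))) (pd X (P y)) ∧
    jv (fun q => X (P q)) y 1 = lc (cx (fderiv ℝ P y (0, 1))) (pd X (P y)) := by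
  have e : ∀ v i, fderiv ℝ (fun q => X (P q) i) y v = lc (cx (fderiv ℝ P y v)) (pd X (P y)) i :=
    fun v i => by
      have := (hasFDerivAt_pi'.1 (hX.hasFDerivAt.comp y hP.hasFDerivAt) i).fderiv
      rw [show (fun q => X (P q) i) = fun q => (X ∘ P) q i from rfl, this,
        ContinuousLinearMap.comp_apply, ContinuousLinearMap.comp_apply, lin_eq, Fin.sum_univ_three]
      simp [lc, cx, pd]
  exact ⟨funext (e _), funext (e _)⟩

theorem pd_lin {f g : E3 → V3} {x : E3} (hf : ContDiffAt ℝ 2 f x) (hg : ContDiffAt ℝ 2 g x)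
    (s : ℂ) : pd (fun z => f z + s • g z) x = pd f x + s • pd g x ∧
      pd (pd fun z => f z + s • g z) x = pd (pd f) x + s • pd (pd g) x := by
  have e : (pd fun z => f z + s • g z) =ᶠ[𝓝 x] fun z => pd f z + s • pd g z := by
    filter_upwards [hf.eventually (by simp), hg.eventually (by simp)] with z h1 h2
    have h1 := h1.differentiableAt (by norm_num)
    have h2 := h2.differentiableAt (by norm_num)
    exact funext fun c => pd_eq (h1.add (h2.const_smul s))
      ((hd_pd h1 c).fun_add ((hd_pd h2 c).const_smul s))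
  have h1 := (cd_pd hf (k := 1) le_rfl).differentiableAt one_ne_zero
  have h2 := (cd_pd hg (k := 1) le_rfl).differentiableAt one_ne_zero
  refine ⟨e.self_of_nhds, (pd_congr e).trans (funext fun c => ?_)⟩
  exact pd_eq (h1.add (h2.const_smul s)) ((hd_pd h1 c).fun_add ((hd_pd h2 c).const_smul s))

theorem cr_eq {a b g : Fin 3 → ℝ} (e : dt g g = 1) (ha : dt g a = 0) (hb : dt g b = 0) :
    cr a b = dt (cr a b) g • g := by
  simp only [dt] at e ha hb
  apply ext3 <;> simp only [dt, Pi.smul_apply, smul_eq_mul, cr0, cr1, cr2]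
  · linear_combination -(a 1 * b 2 - a 2 * b 1) * e + (g 1 * b 2 - g 2 * b 1) * ha
      - (g 1 * a 2 - g 2 * a 1) * hb
  · linear_combination -(a 2 * b 0 - a 0 * b 2) * e + (g 2 * b 0 - g 0 * b 2) * ha
      - (g 2 * a 0 - g 0 * a 2) * hb
  · linear_combination -(a 0 * b 1 - a 1 * b 0) * e + (g 0 * b 1 - g 1 * b 0) * ha
      - (g 0 * a 1 - g 1 * a 0) * hb

theorem cr_ne {A : ℝ × ℝ →L[ℝ] E3} (h : ∀ v, A v = 0 → v = 0) :
    cr (A (1, 0)).ofLp (A (0, 1)).ofLp ≠ 0 := fun z => by
  have z0 := congrFun z 0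
  have z1 := congrFun z 1
  have z2 := congrFun z 2
  simp only [cr0, cr1, cr2, Pi.zero_apply] at z0 z1 z2
  have k : ∀ i, A (1, 0) i = 0 := fun i => by
    refine congrArg Prod.snd (h (-A (0, 1) i, A (1, 0) i) ?_)
    rw [show (-A (0, 1) i, A (1, 0) i) =
      -A (0, 1) i • ((1, 0) : ℝ × ℝ) + A (1, 0) i • ((0, 1) : ℝ × ℝ) by simp, map_add, map_smul,
      map_smul]
    ext j
    fin_cases i <;> fin_cases j <;> simp <;> linarith
  simpa using h (1, 0) (PiLp.ext k)

theorem d_eJ {J : Fin 6 → V3} (h : g2 (J 3) (J 1) ≠ 0) : DifferentiableAt ℂ (eJ 1) J := by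
  unfold eJ
  simp only [e2, hn, g2, dt, cr0, cr1, cr2, Ring.inverse_eq_inv] at h ⊢
  fun_prop (disch := exact h)

end Cv

open Cv in
theorem cov : COV := by
  intro S w δ C h hw P y hP
  have dP := hP.sm.differentiableAt (by simp)
  have pS : P y ∈ S := hP.mem.self_of_nhds
  have w0 := (h.mem_iff _).1 pS
  have hg := P218.H63.contDiff_gradient hw (n := ∞) le_rfl
  have tube : ∀ᶠ x in 𝓝 (P y), |w x| < δ :=
    hw.continuous.abs.continuousAt.eventually_lt continuousAt_const (P218H.Geo.mem_tube h pS)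
  have e : dt (gradient w (P y)).ofLp (gradient w (P y)).ofLp = 1 := by
    rw [← inner_eq_dt, real_inner_self_eq_norm_sq, h.norm_grad _ tube.self_of_nhds, one_pow]
  have t : ∀ v, dt (gradient w (P y)).ofLp (fderiv ℝ P y v).ofLp = 0 := fun v => by
    have h1 := ((hw.differentiable (by simp) _).hasFDerivAt.comp y dP.hasFDerivAt).unique
      ((hasFDerivAt_const (0 : ℝ) y).congr_of_eventuallyEq
        (hP.mem.mono fun q hq => (h.mem_iff _).1 hq))
    rw [← inner_eq_dt, gradient, InnerProductSpace.toDual_symm_apply]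
    exact DFunLike.congr_fun h1 v
  have c : cr (fderiv ℝ P y (1, 0)).ofLp (fderiv ℝ P y (0, 1)).ofLp =
      Jg w P y • (gradient w (P y)).ofLp := cr_eq e (t _) (t _)
  have J0 : Jg w P y ≠ 0 := fun z => cr_ne hP.inj (by rw [c, z, zero_smul])
  have c' : cr (cx (fderiv ℝ P y (1, 0))) (cx (fderiv ℝ P y (0, 1))) =
      (Jg w P y : ℂ) • nu w (P y) := by
    funext i
    exact (map_cr Complex.ofRealHom _ _ i).symm.trans (by rw [c]; simp [nu, cx])
  have one : ∀ X Y : E3 → V3, DifferentiableAt ℝ X (P y) → DifferentiableAt ℝ Y (P y) →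
      cr (jv (fun q => X (P q)) y 3) (jv (fun q => X (P q)) y 1) =
        (Jg w P y : ℂ) • nn (pd X (P y)) (nu w (P y)) ∧
      g2 (jv (fun q => X (P q)) y 3) (jv (fun q => X (P q)) y 1) =
        (Jg w P y : ℂ) ^ 2 * gg (pd X (P y)) (nu w (P y)) ∧
      cr (jv (fun q => X (P q)) y 3) (jv (fun q => Y (P q)) y 1) -
        cr (jv (fun q => X (P q)) y 1) (jv (fun q => Y (P q)) y 3) =
        (Jg w P y : ℂ) • kk (pd X (P y)) (pd Y (P y)) (nu w (P y)) := fun X Y hX hY => by
    rw [g2, (jv_one dP hX).1, (jv_one dP hX).2, (jv_one dP hY).1, (jv_one dP hY).2, cr_lc, cr_lc2,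
      c', nn_smul, kk_smul, smul_dt, dt_smul, gg]
    exact ⟨rfl, by ring, rfl⟩
  set Ψ : E3 → E3 := fun x => P (pr x) + x 2 • gradient w (P (pr x)) with hΨ
  have Ψi : ∀ q, Ψ (io q) = P q := fun q => by simp only [hΨ, pr_io, io2, zero_smul, add_zero]
  have sP : ContDiffAt ℝ ∞ (fun x => P (pr x)) (io y) :=
    ContDiffAt.comp _ (by rw [pr_io]; exact hP.sm) pr.contDiff.contDiffAt
  have s2 : ContDiff ℝ ∞ fun x : E3 => x 2 := (EuclideanSpace.proj 2 : E3 →L[ℝ] ℝ).contDiff
  have sΨ : ContDiffAt ℝ 2 Ψ (io y) :=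
    (sP.add (s2.contDiffAt.smul (hg.contDiffAt.comp _ sP))).of_le (by norm_cast)
  have dΨ := sΨ.differentiableAt (by norm_num)
  have j0 : pd Ψ (io y) 0 = fderiv ℝ P y (1, 0) := by
    rw [pd, ← io0, ← res1 dΨ, funext Ψi]
  have j1 : pd Ψ (io y) 1 = fderiv ℝ P y (0, 1) := by
    rw [pd, ← io1, ← res1 dΨ, funext Ψi]
  have j2 : pd Ψ (io y) 2 = gradient w (P y) := by
    refine pd_eq dΨ ?_
    have : ∀ t : ℝ, pr (io y + t • EuclideanSpace.single 2 1) = y := fun t => by simp [pr, io]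
    simp only [hΨ, this]
    simpa [io2] using ((hasDerivAt_id (0 : ℝ)).smul_const (gradient w (P y))).const_add (P y)
  have jd : dd (jm Ψ (io y)) = Jg w P y := by
    simp only [dd, dt, cr0, cr1, cr2, jm, j0, j1, j2, Jg]
    push_cast
    ring
  have em : (fun _ => mt) =ᶠ[𝓝 (io y)] fun z => rm (nu w (Ψ z)) (jm Ψ z) := by
    have e1 : (fun z => w (Ψ z)) =ᶠ[𝓝 (io y)] fun z => z 2 := by
      have a1 : ∀ᶠ z in 𝓝 (io y), P (pr z) ∈ S :=
        pr.continuous.continuousAt.eventually (by rw [pr_io]; exact hP.mem)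
      have a2 : ∀ᶠ z : E3 in 𝓝 (io y), |z 2| < δ :=
        s2.continuous.abs.continuousAt.eventually_lt continuousAt_const (by simpa [io2] using h.pos)
      filter_upwards [a1, a2] with z h1 h2 using (P218H.Geo.ray h h1 h2).2
    filter_upwards [e1.eventuallyEq_nhds, sΨ.eventually (by simp)] with z h1 h2
    have h3 := ((hw.differentiable (by simp) _).hasFDerivAt.comp z
      (h2.differentiableAt (by norm_num)).hasFDerivAt).unique
      ((EuclideanSpace.proj 2 : E3 →L[ℝ] ℝ).hasFDerivAt.congr_of_eventuallyEq h1)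
    funext b
    have h4 := DFunLike.congr_fun h3 (EuclideanSpace.single b 1)
    rw [ContinuousLinearMap.comp_apply, lin_eq, Fin.sum_univ_three] at h4
    simp only [rm, jm, nu, cx, grad_apply, pd]
    norm_cast
    simp only [smul_eq_mul] at h4
    rw [h4]
    fin_cases b <;> simp [P218N.mt]
  have sn : ContDiffAt ℝ 1 (nu w) (Ψ (io y)) :=
    (cxL.contDiff.comp (hg.of_le (by norm_cast))).contDiffAt
  have js : ∀ X : E3 → V3, ContDiffAt ℝ 2 X (P y) → ContDiffAt ℝ 2 (fun z => X (Ψ z)) (io y) ∧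
      jv (fun q => X (P q)) y = jv (fun q => (fun z => X (Ψ z)) (io q)) y := fun X hX =>
    ⟨ContDiffAt.comp _ (by rwa [Ψi]) sΨ, by simp only [Ψi]⟩
  have two : ∀ (X : E3 → V3) (t : ℂ), ContDiffAt ℝ 2 X (P y) →
      eJ t (jv (fun q => X (P q)) y) = Jg w P y * eX t X (nu w) (P y) := fun X t hX => by
    have := (eX_comp t sΨ (by rwa [Ψi]) sn (EventuallyEq.refl _ fun z => X (Ψ z)) em
      (by rw [jd]; exact Complex.ofReal_ne_zero.2 J0)).2.2
    rw [jd, Ψi, eX, pd_const, ee_mt _ _ _ _ (pd_symm (js X hX).1 1 0)] at this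
    rw [← this, (js X hX).2, jv_io (js X hX).1]
    rfl
  have sx : ContDiffAt ℝ 2 cx (P y) := cxL.contDiff.contDiffAt
  have px : pd (pd cx) (P y) = 0 := by rw [funext pd_id, pd_const]
  obtain ⟨-, l2, l3, l4⟩ := linp w (P y) h.smooth.contDiffAt (tube.mono h.norm_grad) w0
    (.of_forall fun x hx => h.shrinker x ((h.mem_iff x).2 hx))
  refine ⟨J0, ?_, c, by rw [two _ _ sx, eX, px, l3, mul_zero], one, two, fun Y J hY J1 hJ => ?_⟩
  · rw [gr2_eq, c, smul_dt, dt_smul, e]
    ring
  have dx := sx.differentiableAt (by norm_num)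
  have dJ : DifferentiableAt ℂ (eJ 1) (jv (fun q => cx (P q)) y) := d_eJ (by
    rw [(one cx cx dx dx).2.1, l2, mul_one]
    exact pow_ne_zero 2 (Complex.ofReal_ne_zero.2 J0))
  have ln : ∀ {W : Type} [NormedAddCommGroup W] [NormedSpace ℂ W] (a b : W),
      HasDerivAt (fun s : ℂ => a + s • b) b 0 := fun a b => by
    simpa using ((hasDerivAt_id (0 : ℂ)).smul_const b).const_add a
  have h1 := dJ.hasFDerivAt.comp_hasDerivAt_of_eq 0 hJ J1.symm
  have h2 := dJ.hasFDerivAt.comp_hasDerivAt_of_eq 0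
    (ln (jv (fun q => cx (P q)) y) (jv (fun q => Y (P q)) y)) (by simp)
  have h3 := (l4 Y hY _ _ _ (by simp) (by simp) (by simp [px]) (ln (cx (P y)) _)
    (ln (pd cx (P y)) _) (ln (pd (pd cx) (P y)) _)).const_mul (Jg w P y : ℂ)
  refine h1.congr_deriv (h2.unique (h3.congr_of_eventuallyEq (.of_forall fun s => ?_)))
  have hs : ContDiffAt ℝ 2 (fun z => cx z + s • Y z) (P y) := sx.add (hY.const_smul s)
  have h4 := two _ 1 hs
  rw [eX, (pd_lin sx hY s).1, (pd_lin sx hY s).2] at h4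
  refine Eq.trans (congrArg (eJ 1) ?_) h4
  have h5 := pd_lin (js _ sx).1 (js _ hY).1 s
  rw [(js _ hs).2, (js _ sx).2, (js _ hY).2, jv_io (js _ hs).1, jv_io (js _ sx).1,
    jv_io (js _ hY).1, h5.1, h5.2]
  funext k
  fin_cases k <;> rfl

end Vale.Agent.P218T
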