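import Vale.Agent.P218C.Dc

/-! The chart of a cylindrical end (rows CYL and CYLW). -/

open Set Filter Topology
open scoped ContDiff Real

noncomputable section

namespace Vale.Agent.P218T

open Vale.Agent.P218B (J2)
open Vale.Agent.P218N (vv vD)
open Vale.Agent.P218W (jet Le)

namespace Cy

variable (Q : E3 ≃ₗᵢ[ℝ] E3)

theorem comb (a b c θ : ℝ) : a • eR Q θ + b • eT Q θ + c • axis Q =
    Q !₂[a * Real.cos θ - b * Real.sin θ, a * Real.sin θ + b * Real.cos θ, c] := by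
  simp only [eR, eT, axis, ← map_smul, ← map_add]
  congr 1
  ext i
  fin_cases i <;> simp [sub_eq_add_neg]

theorem norm_comb (a b c θ : ℝ) :
    ‖a • eR Q θ + b • eT Q θ + c • axis Q‖ ^ 2 = a ^ 2 + b ^ 2 + c ^ 2 := by
  rw [comb, Q.norm_map, EuclideanSpace.real_norm_sq_eq]
  simp only [Fin.sum_univ_three, Matrix.cons_val]
  linear_combination (a ^ 2 + b ^ 2) * Real.cos_sq_add_sin_sq θ

theorem eR_eq : eR Q = fun θ => Real.cos θ • eR Q 0 + Real.sin θ • eT Q 0 := by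
  funext θ
  simpa [eR] using (comb Q (Real.cos θ) (Real.sin θ) 0 0).symm

theorem eR_sm : ContDiff ℝ ∞ (eR Q) := by
  rw [eR_eq]
  fun_prop

theorem eR_der (θ : ℝ) : HasDerivAt (eR Q) (eT Q θ) θ := by
  rw [eR_eq]
  refine (((Real.hasDerivAt_cos θ).smul_const (eR Q 0)).fun_add
    ((Real.hasDerivAt_sin θ).smul_const (eT Q 0))).congr_deriv ?_
  simpa [eT] using comb Q (-Real.sin θ) (Real.cos θ) 0 0

theorem cylPt_eq (f : ℝ × ℝ → ℝ) :
    cylPt Q f = fun y => (√2 + f y) • eR Q y.2 + y.1 • axis Q := by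
  funext y
  simpa [cylPt] using (comb Q (√2 + f y) 0 y.1 y.2).symm

theorem cylPt_der {f : ℝ × ℝ → ℝ} (h : Dc f) (y v : ℝ × ℝ) : fderiv ℝ (cylPt Q f) y v =
    fderiv ℝ f y v • eR Q y.2 + ((√2 + f y) * v.2) • eT Q y.2 + v.1 • axis Q := by
  have : HasFDerivAt (fun y => (√2 + f y) • eR Q y.2 + y.1 • axis Q) _ y :=
    (((h.sm.differentiable (by simp) y).hasFDerivAt.const_add √2).smul
    ((eR_der Q y.2).hasFDerivAt.comp y hasFDerivAt_snd)).add
      ((hasFDerivAt_fst (p := y)).smul_const (axis Q))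
  rw [cylPt_eq, HasFDerivAt.fderiv this]
  simp [add_comm, mul_smul]

end Cy

open Cy in
/-- **CYL** -/
theorem cyl : CYL := by
  intro Q f hf η hη
  have h := dc_of hf
  obtain ⟨K, K1, hK⟩ := j2_per ((eR_sm Q).of_le (le_inf 2)) fun θ => by simp [eR]
  obtain ⟨ε, ε0, ε1, ε2⟩ : ∃ ε > (0 : ℝ), ε ≤ 1 / 4 ∧ ε ≤ η / 2 :=
    ⟨min _ _, by positivity, min_le_left _ _, min_le_right _ _⟩
  obtain ⟨R, hR⟩ := ev_up.1 ((h.j2 ε0).and
    (tendsto_comap.eventually (eventually_ge_atTop (max 16 (2 / η)))))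
  have s1 : (1.4 : ℝ) ≤ √2 := Real.le_sqrt_of_sq_le (by norm_num)
  have s2 : √2 ≤ (1.5 : ℝ) := Real.sqrt_le_iff.2 (by norm_num)
  have r : ∀ y : ℝ × ℝ, R < y.1 → 1 ≤ √2 + f y ∧ √2 + f y ≤ 2 ∧ 16 ≤ y.1 := fun y hy => by
    obtain ⟨a, b⟩ := abs_le.1 (hR y hy.le).1.h0
    exact ⟨by linarith, by linarith, (le_max_left _ _).trans (hR y hy.le).2⟩
  have n : ∀ y : ℝ × ℝ, ‖cylPt Q f y‖ ^ 2 = (√2 + f y) ^ 2 + y.1 ^ 2 := fun y => by
    simpa [cylPt_eq] using norm_comb Q (√2 + f y) 0 y.1 y.2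
  have u := fun x : E3 => pow_eq_one_iff_of_nonneg (norm_nonneg x) two_ne_zero
  have na : ‖axis Q‖ = 1 := by simpa [-sq_eq_one_iff, u] using norm_comb Q 0 0 1 0
  have nr : ∀ θ, ‖eR Q θ‖ = 1 := fun θ => by simpa [-sq_eq_one_iff, u] using norm_comb Q 1 0 0 θ
  have nt : ∀ θ, ‖eT Q θ‖ = 1 := fun θ => by simpa [-sq_eq_one_iff, u] using norm_comb Q 0 1 0 θ
  refine ⟨R, 2 * K, ⟨fun y _ => ?_, fun z θ _ => by simp [cylPt, hf.per], fun y y' hy hy' e => ?_,
    fun y hy => ?_, fun y hy v => ?_, fun y hy => ?_⟩, fun y hy => ⟨?_, ?_, ?_⟩⟩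
  · have := h.sm
    have := eR_sm Q
    rw [cylPt_eq]
    fun_prop
  · have e' := Q.injective e
    have e0 : (√2 + f y) * Real.cos y.2 = (√2 + f y') * Real.cos y'.2 := congr($e' 0)
    have e1 : (√2 + f y) * Real.sin y.2 = (√2 + f y') * Real.sin y'.2 := congr($e' 1)
    have e2 : y.1 = y'.1 := congr($e' 2)
    have e3 : √2 + f y = √2 + f y' := by
      refine (pow_left_inj₀ (by linarith [r y hy]) (by linarith [r y' hy']) two_ne_zero).1 ?_
      have := n y
      rw [e, n, e2] at this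
      linarith
    rw [← e3, mul_right_inj' (by linarith [r y hy])] at e0 e1
    obtain ⟨k, hk⟩ := Real.Angle.angle_eq_iff_two_pi_dvd_sub.1
      (Real.Angle.cos_sin_inj e0.symm e1.symm)
    exact ⟨e2.symm, k, by linarith⟩
  · obtain ⟨a, b, c⟩ := r y hy
    exact ⟨abs_le_of_sq_le_sq' (by rw [n]; nlinarith) (norm_nonneg _) |>.2,
      abs_le_of_sq_le_sq' (by rw [n]; nlinarith) (by linarith) |>.2⟩
  · obtain ⟨a, b, c⟩ := r y hy
    refine le_trans ?_ (le_mul_of_one_le_left (norm_nonneg _) (by linarith))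
    have : v.2 ^ 2 ≤ ((√2 + f y) * v.2) ^ 2 := by
      rw [mul_pow]
      exact le_mul_of_one_le_left (sq_nonneg _) (one_le_pow₀ a)
    refine norm_prod_le_iff.2 ⟨abs_le_of_sq_le_sq ?_ (norm_nonneg _),
      abs_le_of_sq_le_sq ?_ (norm_nonneg _)⟩ <;> rw [cylPt_der Q h, norm_comb] <;>
      nlinarith [sq_nonneg (fderiv ℝ f y v), sq_nonneg v.1, sq_nonneg v.2]
  · obtain ⟨a, b, c⟩ := r y hy
    have k1 : J2 (fun q : ℝ × ℝ => q.1) y y.1 1 0 := by
      have k := J2.clm (.fst ℝ ℝ ℝ) y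
      exact ⟨k.cd, (abs_of_nonneg (by linarith)).le, k.h1.trans (ContinuousLinearMap.norm_fst_le ..),
        k.h2⟩
    rw [cylPt_eq]
    refine ((((J2.const √2 y).add (hR y hy.le).1).smul (hK y)).add
      (k1.smul (J2.const (axis Q) y))).mono ?_ ?_ ?_ <;>
      rw [na, Real.norm_of_nonneg (Real.sqrt_nonneg _)] <;> nlinarith
  · obtain ⟨a, b, c⟩ := r y hy
    have := (div_le_iff₀ hη).1 ((le_max_right _ _).trans (hR y hy.le).2)
    rw [cylPt_eq, add_sub_cancel_right, norm_smul, nr, Real.norm_of_nonneg (by linarith)]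
    linarith
  · have := (hR y hy.le).1.d1 (1, 0)
    simp only [cylPt_der Q h, mul_zero, zero_smul, add_zero, one_smul, add_sub_cancel_right,
      norm_smul, nr]
    simp only [Prod.norm_mk, norm_one, norm_zero, zero_le_one, sup_of_le_left] at this
    linarith
  · have k := (hR y hy.le).1.d1 (0, 1)
    have k' := (hR y hy.le).1.h0
    simp only [Prod.norm_mk, norm_one, norm_zero, zero_le_one, sup_of_le_right] at k
    simp only [cylPt_der Q h, mul_one, zero_smul, add_zero, add_smul, ← add_assoc]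
    rw [add_right_comm, add_sub_cancel_right]
    refine (norm_add_le _ _).trans ?_
    rw [norm_smul, norm_smul, nr, nt]
    nlinarith

open Cy in
/-- **CYLW** -/
theorem cylw : CYLW := by
  intro f hf
  have h := dc_of hf
  have e : (fun y => VS f y - 2) = fun y => (((2 * √2) • f y + f y * f y : ℝ) : ℂ) := by
    funext y
    rw [VS, ← Complex.ofReal_ofNat, ← Complex.ofReal_sub, add_sq, Real.sq_sqrt zero_le_two,
      smul_eq_mul]
    congr 1
    ring
  have hW : Dc fun y => VS f y - 2 := e ▸ ((h.csmul _).add (h.mul h)).ofReal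
  have s := fun k => (hW.jet k).sml
  refine ⟨by simpa using hW.sm.add (contDiff_const (c := 2)), fun η hη =>
    (eventually_all.2 fun k => s k η hη).exists, fun R₁ hR η hη => ?_⟩
  have c := bo_const
  have V := (c 2).add (s 0).bo
  have i := (s 0).inv two_ne_zero
  have D := ((((s 0).mul ((c 16).add ((c 4).mul (s 0).bo))).add
    ((V.mul (s 3).bo).mul_sm (s 3))).add ((s 1).mul (s 1).bo)).inv (c := 16) (by norm_num)
  have N := ((((V.mul (s 3).bo).mul_sm (s 3)).mul ((s 5).bo.add (c 2))).add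
    (((s 1).mul (s 1).bo).mul (((s 2).bo.mul i).add (c 4)))).add
      ((((c 2).mul (s 3).bo).mul (s 1).bo).mul_sm (s 4))
  refine (((c 2).mul_sm ((((s 0).add (s 5)).add ((s 2).mul i)).sub (N.mul D))).congr
    ((tendsto_comap.eventually (eventually_gt_atTop R₁)).mono fun y hy => ?_) η hη).exists
  have d : fderiv ℝ (fun y => VS f y - 2) = fderiv ℝ (VS f) := funext fun _ => fderiv_sub_const _
  have k := hR y hy
  simp only [vJ, vv, vD, jet, Matrix.cons_val, d, add_sub_cancel, div_eq_mul_inv] at k ⊢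
  rw [show ∀ V p q : ℂ, 16 + ((V - 2) * (16 + 4 * (V - 2)) + V * p * p + q * q) =
    4 * V ^ 2 + V * p ^ 2 + q ^ 2 from fun _ _ _ => by ring]
  linear_combination -2 * k

end Vale.Agent.P218T
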