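import Vale.Agent.P218T.Geo

/-! Decaying functions of `(z, θ)` and the calculus of small and bounded functions in `W`. -/

open Set Filter Topology
open scoped ContDiff Real

noncomputable section

namespace Vale.Agent.P218T.Cy

open Vale.Agent.P218B (J2)
open Vale.Agent.P218W (jet Le le_of_c2 le_z)

variable {V W : Type*} [NormedAddCommGroup V] [NormedSpace ℝ V] [NormedAddCommGroup W]
  [NormedSpace ℝ W]

/-- the filter `z → ∞` -/
abbrev up : Filter (ℝ × ℝ) := comap Prod.fst atTop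

theorem ev_up {p : ℝ × ℝ → Prop} : (∀ᶠ y in up, p y) ↔ ∃ R : ℝ, ∀ y : ℝ × ℝ, R ≤ y.1 → p y := by
  simp only [eventually_comap, eventually_atTop]
  exact exists_congr fun R => ⟨fun h y hy => h _ hy y rfl, fun h _ hz y e => h y (e ▸ hz)⟩

/-- smooth, periodic, tending to zero with all derivatives -/
structure Dc (F : ℝ × ℝ → V) : Prop where
  sm : ContDiff ℝ ∞ F
  per : ∀ z θ, F (z, θ + 2 * π) = F (z, θ)
  lim : ∀ k : ℕ, Tendsto (fun y => ‖iteratedFDeriv ℝ k F y‖) up (𝓝 0)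

theorem dc_of {f : ℝ × ℝ → ℝ} (h : Decays f) : Dc f :=
  ⟨h.smooth, h.per, fun k => (tendsto_order.2 ⟨fun _ ha => .of_forall fun _ =>
    ha.trans_le (norm_nonneg _), fun a ha => (ev_up.2 (h.lim k (a / 2) (half_pos ha))).mono
      fun _ hy => hy.trans_lt (half_lt_self ha)⟩)⟩

theorem le_inf (k : ℕ) : (k : WithTop ℕ∞) ≤ ∞ := by exact_mod_cast le_top

namespace Dc

variable {F G : ℝ × ℝ → V}

theorem clm (h : Dc F) (L : V →L[ℝ] W) : Dc fun y => L (F y) :=
  ⟨L.contDiff.comp h.sm, fun z θ => by rw [h.per], fun k => squeeze_zero (fun _ => norm_nonneg _)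
    (fun _ => L.norm_iteratedFDeriv_comp_left h.sm.contDiffAt (le_inf k))
    (by simpa using (h.lim k).const_mul ‖L‖)⟩

theorem fderiv (h : Dc F) : Dc (fderiv ℝ F) := by
  refine ⟨h.sm.fderiv_right (by simp), fun z θ => ?_, fun k => by
    simpa only [norm_iteratedFDeriv_fderiv] using h.lim (k + 1)⟩
  have e : F = fun y => F (y + (0, 2 * π)) := funext fun y => by
    rw [← h.per y.1 y.2]
    congr 1
    ext <;> simp
  conv_rhs => rw [e, fderiv_comp_add_right]
  simp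

/-- directional derivatives -/
theorem dir (h : Dc F) (v : ℝ × ℝ) : Dc fun y => _root_.fderiv ℝ F y v :=
  h.fderiv.clm (ContinuousLinearMap.apply ℝ V v)

theorem add (h : Dc F) (k : Dc G) : Dc fun y => F y + G y :=
  ⟨h.sm.add k.sm, fun z θ => by rw [h.per, k.per], fun n => squeeze_zero (fun _ => norm_nonneg _)
    (fun _ => (congrArg _ (fun_iteratedFDeriv_add_apply (h.sm.contDiffAt.of_le (le_inf n))
        (k.sm.contDiffAt.of_le (le_inf n)))).trans_le (norm_add_le _ _))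
    (by simpa using (h.lim n).add (k.lim n))⟩

theorem csmul (h : Dc F) (c : ℝ) : Dc fun y => c • F y := h.clm (c • .id ℝ V)

theorem mul {A : Type*} [NormedRing A] [NormedAlgebra ℝ A] {F G : ℝ × ℝ → A} (h : Dc F)
    (k : Dc G) : Dc fun y => F y * G y :=
  ⟨h.sm.mul k.sm, fun z θ => by rw [h.per, k.per], fun n => squeeze_zero (fun _ => norm_nonneg _)
    (fun y => norm_iteratedFDeriv_mul_le h.sm k.sm y (le_inf n)) (by
      simpa using tendsto_finsetSum (Finset.range (n + 1)) fun i _ =>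
        ((h.lim i).const_mul (n.choose i : ℝ)).mul (k.lim (n - i)))⟩

theorem ofReal {f : ℝ × ℝ → ℝ} (h : Dc f) : Dc fun y => (f y : ℂ) := h.clm Complex.ofRealCLM

theorem small (h : Dc F) {ε : ℝ} (hε : 0 < ε) : ∀ᶠ y in up, ‖F y‖ ≤ ε := by
  simpa using (h.lim 0).eventually (ge_mem_nhds hε)

theorem j2 (h : Dc F) {ε : ℝ} (hε : 0 < ε) : ∀ᶠ y in up, J2 F y ε ε ε := by
  filter_upwards [h.small hε, h.fderiv.small hε, h.fderiv.fderiv.small hε] with y a b c
  exact ⟨h.sm.contDiffAt.of_le (le_inf 2), a, b, c⟩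

theorem dt (h : Dc F) (z θ : ℝ) :
    HasDerivAt (fun θ => F (z, θ)) (_root_.fderiv ℝ F (z, θ) (0, 1)) θ := by
  simpa [Function.comp_def] using (h.sm.differentiable (by simp) (z, θ)).hasFDerivAt.comp_hasDerivAt
    θ ((hasDerivAt_const θ z).prodMk (hasDerivAt_id θ))

theorem jet {F : ℝ × ℝ → ℂ} (h : Dc F) (k : Fin 6) : Dc (jet F k) := by
  fin_cases k
  exacts [h, h.dir _, (h.fderiv.dir _).clm (.apply ℝ ℂ _), h.dir _,
    (h.fderiv.dir _).clm (.apply ℝ ℂ _), (h.fderiv.dir _).clm (.apply ℝ ℂ _)]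

end Dc

/-- smooth periodic functions have bounded 2-jets -/
theorem j2_per {g : ℝ → V} (h : ContDiff ℝ 2 g) (p : ∀ θ, g (θ + 2 * π) = g θ) :
    ∃ K, 1 ≤ K ∧ ∀ y : ℝ × ℝ, J2 (fun q : ℝ × ℝ => g q.2) y K K K := by
  have b : ∀ {X : Type _} [NormedAddCommGroup X] {u : ℝ → X}, Continuous u →
      Function.Periodic u (2 * π) → ∃ K, ∀ θ, ‖u θ‖ ≤ K := fun {X} _ {u} c p => by
    obtain ⟨K, hK⟩ := isBounded_iff_forall_norm_le.1
      (p.isBounded_of_continuous Real.two_pi_pos.ne' c)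
    exact ⟨K, fun θ => hK _ ⟨θ, rfl⟩⟩
  have d : ∀ {X : Type _} [NormedAddCommGroup X] [NormedSpace ℝ X] {u : ℝ → X},
      Function.Periodic u (2 * π) → Function.Periodic (fderiv ℝ u) (2 * π) :=
    fun {X} _ _ {u} p θ => by rw [← fderiv_comp_add_right, funext p]
  have h1 := h.fderiv_right (m := 1) le_rfl
  obtain ⟨a, ha⟩ := b h.continuous p
  obtain ⟨a', ha'⟩ := b h1.continuous (d p)
  obtain ⟨a'', ha''⟩ := b (h1.continuous_fderiv one_ne_zero) (d (d p))
  refine ⟨max 1 (max a (max a' a'')), le_max_left _ _, fun y => ?_⟩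
  have k : J2 g y.2 a a' a'' := ⟨h.contDiffAt, ha _, ha' _, ha'' _⟩
  refine (k.comp (f := Prod.snd) (J2.clm (.snd ℝ ℝ ℝ) y)).mono (by simp) ?_ ?_ <;>
    simp [ContinuousLinearMap.norm_snd]

/-- small in `W` at infinity -/
def Sm (F : ℝ × ℝ → ℂ) : Prop := ∀ η > (0 : ℝ), ∀ᶠ R in atTop, Le (Ici R) F (fun _ => 1) η

/-- bounded in `W` at infinity -/
def Bo (F : ℝ × ℝ → ℂ) : Prop := ∃ M, ∀ᶠ R in atTop, Le (Ici R) F (fun _ => 1) M

variable {F G : ℝ × ℝ → ℂ}

theorem ev_le {M R : ℝ} (h : Le (Ici R) F (fun _ => 1) M) :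
    ∀ᶠ R in atTop, Le (Ici R) F (fun _ => 1) M :=
  (eventually_ge_atTop R).mono fun _ k => h.mono (Ici_subset_Ici.2 k) (fun _ _ => le_rfl) le_rfl

theorem Dc.sml (h : Dc F) : Sm F := fun η hη => by
  have h1 := h.dir (0, 1)
  have h2 := h1.dir (0, 1)
  have e : 0 < η / 16 := by positivity
  obtain ⟨R, hR⟩ := ev_up.1 ((h.small e).and (h2.small e))
  refine ev_le (R := R) ((le_of_c2 (F₁ := fun y => _root_.fderiv ℝ F y (0, 1))
    (F₂ := fun y => _root_.fderiv ℝ (fun y => _root_.fderiv ℝ F y (0, 1)) y (0, 1))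
    e.le (by simp) (fun z _ => h.per z) (fun z _ => h.dt z)
    (fun z _ => h1.dt z) (fun z _ => h2.sm.continuous.comp (.prodMk_right z))
    (fun z hz θ => (hR (z, θ) hz).1.trans_eq (mul_one _).symm)
    fun z hz θ => (hR (z, θ) hz).2.trans_eq (mul_one _).symm).mono subset_rfl (fun _ _ => le_rfl)
      (by linarith))

theorem Sm.bo (h : Sm F) : Bo F := ⟨1, h 1 one_pos⟩

theorem bo_const (c : ℂ) : Bo fun _ => c := ⟨_, .of_forall fun _ =>
  le_z (φ := fun _ => c) (norm_nonneg c) (by simp) (by simp)⟩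

theorem Bo.add (h : Bo F) (k : Bo G) : Bo fun y => F y + G y := by
  obtain ⟨M, h⟩ := h
  obtain ⟨N, k⟩ := k
  exact ⟨_, (h.and k).mono fun _ a => a.1.add a.2⟩

theorem Bo.mul (h : Bo F) (k : Bo G) : Bo fun y => F y * G y := by
  obtain ⟨M, h⟩ := h
  obtain ⟨N, k⟩ := k
  exact ⟨_, (h.and k).mono fun _ a => by simpa using a.1.mul a.2⟩

theorem Sm.add (h : Sm F) (k : Sm G) : Sm fun y => F y + G y := fun η hη =>
  ((h _ (half_pos hη)).and (k _ (half_pos hη))).mono fun _ a => by simpa using a.1.add a.2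

theorem Sm.mul (h : Sm F) (k : Bo G) : Sm fun y => F y * G y := fun η hη => by
  obtain ⟨N, k⟩ := k
  have N0 := k.exists.choose_spec.M0
  filter_upwards [h (η / (N + 1)) (by positivity), k] with R a b
  refine (a.mul b).mono subset_rfl (by simp) ?_
  rw [div_mul_eq_mul_div, div_le_iff₀ (by positivity)]
  nlinarith

theorem Bo.mul_sm (h : Bo F) (k : Sm G) : Sm fun y => F y * G y := by
  simpa only [mul_comm] using k.mul h

theorem Sm.neg (h : Sm F) : Sm fun y => -F y := fun η hη => (h η hη).mono fun _ a => a.neg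

theorem Sm.sub (h : Sm F) (k : Sm G) : Sm fun y => F y - G y := by
  simpa only [sub_eq_add_neg] using h.add k.neg

theorem Sm.inv (h : Sm F) {c : ℂ} (hc : c ≠ 0) : Bo fun y => (c + F y)⁻¹ := by
  have c0 := norm_pos_iff.2 hc
  refine ⟨_, (h (‖c‖ / 2) (by positivity)).mono fun R a => (((a.wt (C := ‖c‖⁻¹)
    (ω' := fun _ => ‖c‖) (by positivity) (by simp) (by simp [c0.ne'])).inv_add (ρ := fun _ => c)
      (le_of_eq (by field_simp)) fun _ _ => hc).2.wt (C := ‖c‖⁻¹) (by positivity) (by simp)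
        (by simp))⟩

theorem Sm.congr (h : Sm F) (e : ∀ᶠ y in up, G y = F y) : Sm G := fun η hη => by
  obtain ⟨R, hR⟩ := ev_up.1 e
  filter_upwards [h η hη, eventually_ge_atTop R] with R' a b
  exact a.congr fun z hz θ => hR (z, θ) (b.trans hz)

theorem Bo.congr (h : Bo F) (e : ∀ᶠ y in up, G y = F y) : Bo G := by
  obtain ⟨R, hR⟩ := ev_up.1 e
  obtain ⟨M, h⟩ := h
  refine ⟨M, ?_⟩
  filter_upwards [h, eventually_ge_atTop R] with R' a b
  exact a.congr fun z hz θ => hR (z, θ) (b.trans hz)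

end Vale.Agent.P218T.Cy
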