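import Vale.Agent.P218C.Meas

/-! The ambient jets of a lift in terms of the jets in the chart. -/

open Set Filter Topology
open scoped ContDiff Real

noncomputable section

namespace Vale.Agent.P218T

open Vale.Agent.P218B
open Vale.Agent.P218H (J1 dd ee dd_dd op)
open Vale.Agent.P218W (jet DD DD_self DD_apply)

/-- periodic coordinates -/
def tau (y : ℝ × ℝ) : ℝ × ℝ × ℝ := (y.1, Real.cos y.2, Real.sin y.2)

/-- a left inverse of the derivative of `tau` -/
def rho (θ : ℝ) (v : ℝ × ℝ × ℝ) : ℝ × ℝ := (v.1, Real.cos θ * v.2.2 - Real.sin θ * v.2.1)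

theorem cd_tau : ContDiff ℝ ∞ tau := by
  unfold tau
  fun_prop

theorem per_tau (R : ℝ) : Per R tau := fun z θ _ => by simp [tau]

theorem fderiv_tau (y a : ℝ × ℝ) :
    fderiv ℝ tau y a = (a.1, -Real.sin y.2 * a.2, Real.cos y.2 * a.2) := by
  have h : HasFDerivAt tau _ y := hasFDerivAt_fst.prodMk
    (hasFDerivAt_snd.cos.prodMk hasFDerivAt_snd.sin)
  rw [h.fderiv]
  simp

theorem d2_tau (y a b : ℝ × ℝ) :
    d2 tau y a b = (0, -Real.cos y.2 * a.2 * b.2, -Real.sin y.2 * a.2 * b.2) := by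
  have h1 := (hasD2 (cd_tau.contDiffAt.of_le (by norm_cast) (x := y))).clm_apply
    (hasFDerivAt_const b y)
  simp only [fderiv_tau] at h1
  have := congrArg (· a) (h1.unique ((hasFDerivAt_const b.1 y).prodMk
    ((hasFDerivAt_snd.sin.fun_neg.mul_const b.2).prodMk (hasFDerivAt_snd.cos.mul_const b.2))))
  simp at this
  rw [this]
  simp [mul_comm, mul_left_comm]

theorem rho_d (y a b c : ℝ × ℝ) : rho y.2 (fderiv ℝ tau y a) = a ∧
    rho y.2 (d2 tau y b c + fderiv ℝ tau y a) = a := by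
  simp only [rho, fderiv_tau, d2_tau, Prod.mk_add_mk, zero_add, Prod.ext_iff, true_and]
  constructor <;> linear_combination a.2 * Real.sin_sq_add_cos_sq y.2

namespace Mod

variable (M : Mod) (e : M.I)

/-- the derivative of the coordinates `(z, θ)` -/
def B1 (y : ℝ × ℝ) (v : E3) : ℝ × ℝ := rho y.2 (fderiv ℝ (M.lift e tau) (M.P e y) v)

/-- the second derivative of the coordinates `(z, θ)` -/
def B2 (y : ℝ × ℝ) (v v' : E3) : ℝ × ℝ := rho y.2 (d2 (M.lift e tau) (M.P e y) v v')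

/-- the coefficients of the ambient jets -/
def cJ : J1 3 → J1 3 → Fin 6 → ℝ × ℝ → ℝ
  | none, none => fun k _ => ![1, 0, 0, 0, 0, 0] k
  | some i, none => fun k y => ![0, (M.B1 e y (ee i)).2, 0, (M.B1 e y (ee i)).1, 0, 0] k
  | none, some i => fun k y => ![0, (M.B1 e y (ee i)).2, 0, (M.B1 e y (ee i)).1, 0, 0] k
  | some i, some j => fun k y => ![0, (M.B2 e y (ee i) (ee j)).2,
      (M.B1 e y (ee i)).2 * (M.B1 e y (ee j)).2, (M.B2 e y (ee i) (ee j)).1,
      (M.B1 e y (ee i)).1 * (M.B1 e y (ee j)).2 + (M.B1 e y (ee i)).2 * (M.B1 e y (ee j)).1,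
      (M.B1 e y (ee i)).1 * (M.B1 e y (ee j)).1] k

namespace Geo

variable {M e} (g : M.Geo) {y : ℝ × ℝ} {V : Type*} [NormedAddCommGroup V] [NormedSpace ℝ V]
include g

/-- the chain rule for lifts -/
theorem lift_d {F : ℝ × ℝ → V} (h : Per M.R F) (hy : M.R < y.1) (hF : ContDiffAt ℝ 2 F y)
    (v v' : E3) : fderiv ℝ (M.lift e F) (M.P e y) v = fderiv ℝ F y (M.B1 e y v) ∧
      d2 (M.lift e F) (M.P e y) v v' =
        d2 F y (M.B1 e y v) (M.B1 e y v') + fderiv ℝ F y (M.B2 e y v v') := by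
  obtain ⟨k, k1, k2, k3, -⟩ := (g.loc e).inv (g.zero_mem_O hy)
  rw [Ph_zero] at k1 k2 k3
  have c : ContDiffAt ℝ 2 (fun x => (k x).1) (M.P e y) := k1.fst.of_le (by norm_cast)
  have k4 : (k (M.P e y)).1 = y := by rw [k2]
  have e1 : M.lift e F =ᶠ[𝓝 (M.P e y)] fun x => F (k x).1 := k3.mono fun x hx => by
    rw [← hx.2, g.lift_Ph (e := e) h hx.1, hx.2]
  have e2 : M.lift e tau =ᶠ[𝓝 (M.P e y)] fun x => tau (k x).1 := k3.mono fun x hx => by
    rw [← hx.2, g.lift_Ph (e := e) (per_tau _) hx.1, hx.2]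
  have t : ContDiffAt ℝ 2 tau (k (M.P e y)).1 := cd_tau.contDiffAt.of_le (by norm_cast)
  have b1 : ∀ u, M.B1 e y u = fderiv ℝ (fun x => (k x).1) (M.P e y) u := fun u => by
    rw [B1, e2.fderiv_eq, d1_comp (f := fun x => (k x).1) t c, k4, (rho_d y _ 0 0).1]
  have b2 : M.B2 e y v v' = d2 (fun x => (k x).1) (M.P e y) v v' := by
    rw [B2, d2_congr e2, d2_comp (f := fun x => (k x).1) t c, k4, (rho_d y _ _ _).2]
  rw [← k4] at hF
  rw [e1.fderiv_eq, d2_congr e1, d1_comp (f := fun x => (k x).1) hF c,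
    d2_comp (f := fun x => (k x).1) hF c, k4, b1, b1, b2]
  exact ⟨rfl, rfl⟩

theorem lift_d1 {F : ℝ × ℝ → V} (h : Per M.R F) (hy : M.R < y.1) (hF : DifferentiableAt ℝ F y)
    (v : E3) : DifferentiableAt ℝ (M.lift e F) (M.P e y) ∧
      fderiv ℝ (M.lift e F) (M.P e y) v = fderiv ℝ F y (M.B1 e y v) := by
  obtain ⟨k, k1, k2, k3, -⟩ := (g.loc e).inv (g.zero_mem_O hy)
  rw [Ph_zero] at k1 k2 k3
  have c : ContDiffAt ℝ 2 (fun x => (k x).1) (M.P e y) := k1.fst.of_le (by norm_cast)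
  have k4 : (k (M.P e y)).1 = y := by rw [k2]
  have e1 : M.lift e F =ᶠ[𝓝 (M.P e y)] fun x => F (k x).1 := k3.mono fun x hx => by
    rw [← hx.2, g.lift_Ph (e := e) h hx.1, hx.2]
  have e2 : M.lift e tau =ᶠ[𝓝 (M.P e y)] fun x => tau (k x).1 := k3.mono fun x hx => by
    rw [← hx.2, g.lift_Ph (e := e) (per_tau _) hx.1, hx.2]
  have t : ContDiffAt ℝ 2 tau (k (M.P e y)).1 := cd_tau.contDiffAt.of_le (by norm_cast)
  have d := HasFDerivAt.comp (f := fun x => (k x).1) (M.P e y) (k4.symm ▸ hF.hasFDerivAt)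
    (hasD1 c)
  rw [B1, e2.fderiv_eq, d1_comp (f := fun x => (k x).1) t c, k4, (rho_d y _ 0 0).1,
    (d.congr_of_eventuallyEq e1).fderiv, k4]
  exact ⟨(d.congr_of_eventuallyEq e1).differentiableAt, rfl⟩

/-- **the ambient jets of a lift** -/
theorem lift_jet {F : ℝ × ℝ → ℂ} (h : Per M.R F) (hy : M.R < y.1) (hF : ContDiffAt ℝ 2 F y)
    (i j : J1 3) : dd i (dd j (M.lift e F)) (M.P e y) = ∑ k, M.cJ e i j k y * jet F k y := by
  have d1 : ∀ a, fderiv ℝ F y a = a.1 * jet F 3 y + a.2 * jet F 1 y := fun a => by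
    rw [DD_self (fderiv ℝ F y), DD_apply]
    rfl
  have h1 := fun i => (g.lift_d (e := e) h hy hF (ee i) 0).1.trans (d1 _)
  rcases i with _ | i <;> rcases j with _ | j
  · simp [dd, cJ, g.lift_P h hy, Fin.sum_univ_six, jet]
  · simp [dd, cJ, h1, Fin.sum_univ_six, add_comm]
  · simp [dd, cJ, h1, Fin.sum_univ_six, add_comm]
  · have d2' : ∀ a b : ℝ × ℝ, d2 F y a b = a.1 * (b.1 * jet F 5 y + b.2 * jet F 4 y) +
        a.2 * (b.1 * jet F 4 y + b.2 * jet F 2 y) := fun a b => by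
      rw [DD_self (d2 F y a), DD_apply, d2_symm hF a, d2_symm hF a, DD_self (d2 F y (1, 0)),
        DD_self (d2 F y (0, 1)), DD_apply, DD_apply, d2_symm hF (0, 1) (1, 0)]
      simp only [jet, Matrix.cons_val]
      ring
    rw [dd_dd (g.lift_cd h hy (by norm_cast) hF), (g.lift_d h hy hF _ _).2, d1, d2']
    simp [cJ, Fin.sum_univ_six]
    ring

theorem cd_B (hy : M.R < y.1) (v v' : E3) : ContDiffAt ℝ ∞ (fun q => M.B1 e q v) y ∧
    ContDiffAt ℝ ∞ (fun q => M.B2 e q v v') y := by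
  have h0 := g.lift_cd (e := e) (per_tau _) hy le_rfl cd_tau.contDiffAt
  have h1 : ContDiffAt ℝ ∞ (fderiv ℝ (M.lift e tau)) (M.P e y) := h0.fderiv_right le_rfl
  have h2 : ContDiffAt ℝ ∞ (d2 (M.lift e tau)) (M.P e y) := h1.fderiv_right le_rfl
  have r : ∀ {u : ℝ × ℝ → ℝ × ℝ × ℝ}, ContDiffAt ℝ ∞ u y →
      ContDiffAt ℝ ∞ (fun q => rho q.2 (u q)) y := fun hu =>
    hu.fst.prodMk ((contDiffAt_snd.cos.mul hu.snd.snd).sub (contDiffAt_snd.sin.mul hu.snd.fst))
  exact ⟨r ((h1.comp y (g.cdP e hy)).clm_apply contDiffAt_const),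
    r (((h2.comp y (g.cdP e hy)).clm_apply contDiffAt_const).clm_apply contDiffAt_const)⟩

theorem per_B (e : M.I) : Per M.R (M.B1 e) ∧ Per M.R (M.B2 e) := by
  constructor <;> intro z θ hz
  · funext v
    simp [B1, rho, g.perP e z θ hz]
  · funext v v'
    simp [B2, rho, g.perP e z θ hz]

theorem cd_cJ (hy : M.R < y.1) (i j : J1 3) (k : Fin 6) : ContDiffAt ℝ ∞ (M.cJ e i j k) y := by
  have h1 := fun i => (g.cd_B (e := e) hy (ee i) 0).1
  have h2 := fun i j => (g.cd_B (e := e) hy (ee i) (ee j)).2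
  rcases i with _ | i <;> rcases j with _ | j <;> fin_cases k <;>
    first
    | exact contDiffAt_const
    | exact (h1 _).fst
    | exact (h1 _).snd
    | exact (h2 _ _).fst
    | exact (h2 _ _).snd
    | exact (h1 _).snd.mul (h1 _).snd
    | exact (h1 _).fst.mul (h1 _).fst
    | exact ((h1 _).fst.mul (h1 _).snd).add ((h1 _).snd.mul (h1 _).fst)

theorem per_cJ (e : M.I) (i j : J1 3) (k : Fin 6) : Per M.R (M.cJ e i j k) := fun z θ hz => by
  rcases i with _ | i <;> rcases j with _ | j <;>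
    simp only [cJ, (g.per_B e).1 z θ hz, (g.per_B e).2 z θ hz]

/-- an operator on lifts is an operator in the chart -/
theorem op_lift (a : J1 3 → J1 3 → E3 → ℝ) {F : ℝ × ℝ → ℂ} (h : Per M.R F) (hy : M.R < y.1)
    (hF : ContDiffAt ℝ 2 F y) : op a (M.lift e F) (M.P e y) =
      ∑ k, (∑ i, ∑ j, a i j (M.P e y) * M.cJ e i j k y : ℝ) * jet F k y := by
  simp only [op, g.lift_jet h hy hF, Complex.real_smul, Finset.mul_sum, Complex.ofReal_sum,
    Finset.sum_mul, Complex.ofReal_mul, mul_assoc]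
  rw [Finset.sum_comm (s := Finset.univ (α := Fin 6))]
  exact Finset.sum_congr rfl fun i _ => Finset.sum_comm

end Geo

end Mod

end Vale.Agent.P218T
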