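import Vale.Agent.P218C.Ex
import Vale.Agent.P218C.Jet

/-! The equation of the surface and its linearisation in the charts of the ends. -/

open Set Filter Topology
open scoped ContDiff RealInnerProductSpace Real

noncomputable section

namespace Vale.Agent.P218T

open Vale.Agent.P218H (op sa prw dd)
open Vale.Agent.P218N (V3 cx nu cr dt g2 fr Orth smul_dt dt_smul vD kD vv g2_cyl e2_cone)
open Vale.Agent.P218W (jet)
open Vale.Agent.P218T.Frm Vale.Agent.P218T.Ex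

theorem jv_congr {F G : ℝ × ℝ → V3} {y : ℝ × ℝ} (h : F =ᶠ[𝓝 y] G) : jv F y = jv G y := by
  funext k i
  have e : (fun q => F q i) =ᶠ[𝓝 y] fun q => G q i := h.mono fun q hq => congrFun hq i
  fin_cases k <;> simp [jv, jet, e.eq_of_nhds, e.fderiv_eq, e.fderiv.fderiv_eq]

theorem jet_congr {F G : ℝ × ℝ → ℂ} {y : ℝ × ℝ} (e : F =ᶠ[𝓝 y] G) (k : Fin 6) :
    jet F k y = jet G k y := by
  fin_cases k <;> simp [jet, e.eq_of_nhds, e.fderiv_eq, e.fderiv.fderiv_eq]

theorem per_jet {R : ℝ} {F : ℝ × ℝ → ℂ} (h : Per R F) (k : Fin 6) : Per R (jet F k) :=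
  fun z θ hz => by
    fin_cases k <;> simp [jet, h z θ hz, h.fderiv z θ hz, h.fderiv.fderiv z θ hz]

theorem jet_add {F G : ℝ × ℝ → ℂ} {y : ℝ × ℝ} (hF : ContDiffAt ℝ 2 F y) (hG : ContDiffAt ℝ 2 G y)
    (k : Fin 6) : jet (fun q => F q + G q) k y = jet F k y + jet G k y :=
  ((lj hF).add (lj hG)).jet k

theorem jet_mul {F G : ℝ × ℝ → ℂ} {y : ℝ × ℝ} (hF : ContDiffAt ℝ 2 F y) (hG : ContDiffAt ℝ 2 G y)
    (k : Fin 6) :
    jet (fun q => F q * G q) k y = jm (fun i => jet F i y) (fun i => jet G i y) k :=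
  ((lj hF).mul (lj hG)).jet k

theorem jv_add {F G : ℝ × ℝ → V3} {y : ℝ × ℝ} (hF : ContDiffAt ℝ 2 F y) (hG : ContDiffAt ℝ 2 G y) :
    jv (fun q => F q + G q) y = jv F y + jv G y :=
  funext fun k => funext fun i => jet_add (contDiffAt_pi.1 hF i) (contDiffAt_pi.1 hG i) k

theorem cd_cxv {a : ℝ × ℝ → E3} {y : ℝ × ℝ} {k : WithTop ℕ∞} (h : ContDiffAt ℝ k a y) :
    ContDiffAt ℝ k (fun q => cx (a q)) y := P218N.Lp.cxL.contDiff.contDiffAt.comp y h

theorem cd_ofReal {a : ℝ × ℝ → ℝ} {y : ℝ × ℝ} {k : WithTop ℕ∞} (h : ContDiffAt ℝ k a y) :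
    ContDiffAt ℝ k (fun q => (a q : ℂ)) y := Complex.ofRealCLM.contDiff.contDiffAt.comp y h

/-- the derivative along a curve depends only on the velocity -/
theorem hd_curve {X : Type*} [NormedAddCommGroup X] [NormedSpace ℂ X] {φ : X → ℂ} {V V' : ℂ → X}
    {b : X} {d : ℂ} (hφ : DifferentiableAt ℂ φ (V 0)) (e : V' 0 = V 0) (h : HasDerivAt V b 0)
    (h' : HasDerivAt V' b 0) (k : HasDerivAt (fun s => φ (V' s)) d 0) :
    HasDerivAt (fun s => φ (V s)) d 0 := by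
  rw [k.unique ((e ▸ hφ.hasFDerivAt).comp_hasDerivAt 0 h'), e]
  exact hφ.hasFDerivAt.comp_hasDerivAt 0 h

theorem hd_line {X : Type*} [NormedAddCommGroup X] [NormedSpace ℂ X] (a b : X) :
    HasDerivAt (fun s : ℂ => a + s • b) b 0 := by
  simpa using ((hasDerivAt_id (0 : ℂ)).smul_const b).const_add a

theorem d_vJ {t z : ℂ} {V : Fin 6 → ℂ} (h : V 0 ≠ 0) (hD : vD (V 0) (V 3) (V 1) ≠ 0) :
    DifferentiableAt ℂ (vJ t z) V := by
  unfold vJ vv
  unfold vD at *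
  fun_prop (disch := assumption)

theorem d_kJ {γ n : ℝ → E3} {θ : ℝ} {J : Fin 7 → ℂ}
    (hD : kD (spd γ : ℂ) (kap γ n θ) (J 0) (J 1) (J 3) ≠ 0) : DifferentiableAt ℂ (kJ γ n θ) J := by
  unfold kJ P218N.kE P218N.kH
  unfold kD at *
  simp only [Ring.inverse_eq_inv]
  fun_prop (disch := assumption)

theorem d_jk (z : ℂ) : Differentiable ℂ (jk z) := by
  refine differentiable_pi.2 fun k => ?_
  fin_cases k <;> simp [jk] <;> fun_prop

namespace Mod

variable (M : Mod)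

/-- the factor between the unknown on an end and the normal height -/
def qn : M.I → ℝ × ℝ → ℝ
  | .inl i => fun y => M.s (.inl i) / (2 * M.JS (.inl i) y)
  | .inr j => fun y => ⟪gradient M.w (M.P (.inr j) y), M.n j y.2⟫

/-- the factor between the equation on an end and the stability operator -/
def kn : M.I → ℝ × ℝ → ℝ
  | .inl i => fun y => M.s (.inl i) / (2 * M.JS (.inl i) y)
  | .inr j => fun y => spd (M.γ j) * M.s (.inr j) / M.JS (.inr j) y

namespace Geo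

variable {M} (g : M.Geo) {y : ℝ × ℝ} {i : Fin M.n₁} {j : Fin M.n₂} {e : M.I}
include g

theorem s_ne (e : M.I) : M.s e ≠ 0 := fun h => by simpa [h] using (g.sq e).1

theorem e_ne (e : M.I) : M.ε e ≠ 0 := fun h => by simpa [h] using (g.sq e).2

theorem orthQ (i : Fin M.n₁) (θ : ℝ) : Orth (FQ (M.Q i) θ) (M.ε (.inl i)) := g.orth (.inl i) θ

theorem orthK (j : Fin M.n₂) (θ : ℝ) : Orth (FK (M.γ j) (M.n j) θ) (M.ε (.inr j)) :=
  g.orth (.inr j) θ

theorem nu_Ph (e : M.I) {a : (ℝ × ℝ) × ℝ} (ha : a ∈ M.O) :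
    gradient M.w (M.Ph e a) = gradient M.w (M.P e a.1) :=
  (P218H.Geo.ray g.shr (g.mem e _ ha.1) ha.2).1

theorem link (j : Fin M.n₂) : IsLink (M.γ j) (M.n j) := g.ended.link j

theorem spd_pos (j : Fin M.n₂) : 0 < spd (M.γ j) := (spd_eq (g.link j)).1

theorem r_mem (hy : M.R < y.1) : √2 + M.f i y ∈ Icc 1 2 := by
  have := abs_le.1 (g.rs i y hy)
  constructor <;> nlinarith [Real.sq_sqrt zero_le_two, Real.sqrt_nonneg 2, Real.one_lt_sqrt_two]

theorem r_ne (hy : M.R < y.1) : √2 + M.f i y ≠ 0 := (one_pos.trans_le (g.r_mem hy).1).ne'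

theorem cd_f (i : Fin M.n₁) : ContDiff ℝ ∞ (M.f i) := (g.ended.cyl i).smooth

theorem cd_VS (i : Fin M.n₁) : ContDiff ℝ ∞ (VS (M.f i)) := (cylw _ (g.ended.cyl i)).1

theorem cd_uS (hy : M.R < y.1) : ContDiffAt ℝ ∞ (uS (M.g j)) y :=
  (conw conj' _ _ _ (g.link j) (g.ended.cone j)).1 y (one_pos.trans (g.pos hy))

theorem per_VS (i : Fin M.n₁) (R : ℝ) : Per R (VS (M.f i)) := fun z θ _ => by
  simp only [VS, (g.ended.cyl i).per]

theorem per_uS (j : Fin M.n₂) (R : ℝ) : Per R (uS (M.g j)) := fun z θ _ => by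
  simp only [uS, (g.ended.cone j).per]

theorem cd_nE (e : M.I) : ContDiff ℝ ∞ (M.nE e) := by
  rcases e with i | j
  exacts [Cy.eR_sm _, (g.link j).smooth_n]

theorem per_nE (e : M.I) (θ : ℝ) : M.nE e (θ + 2 * π) = M.nE e θ := by
  rcases e with i | j
  exacts [by simp [nE, eR], (g.link j).per_n θ]

theorem jv_cyl (hy : M.R < y.1) : jv (fun q => cx (M.P (.inl i) q)) y = fun k => FQ (M.Q i) y.2
    (cyJ (sqJ (√2 + M.f i y : ℝ) fun k => jet (VS (M.f i)) k y) y.1 1 0 k) :=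
  cyl_jv _ ((g.cd_f i).contDiffAt.of_le (by norm_cast)) (g.r_ne hy)

theorem jv_con (hy : M.R < y.1) : jv (fun q => cx (M.P (.inr j) q)) y = fun k =>
    FK (M.γ j) (M.n j) y.2 (coJ (spd (M.γ j)) (kap (M.γ j) (M.n j) y.2)
      (deriv (kap (M.γ j) (M.n j)) y.2 : ℝ) y.1 (fun k => jet (uS (M.g j)) k y) k) :=
  con_jv (g.link j) (g.ended.cone j) (one_pos.trans (g.pos hy))

/-- `⟨ν, e_r⟩ = 2 r q` -/
theorem nu_er (hy : M.R < y.1) : ⟪gradient M.w (M.P (.inl i) y), eR (M.Q i) y.2⟫ =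
    2 * (√2 + M.f i y) * M.qn (.inl i) y := by
  have h := cyl_nu g.shr g.smw (g.pc (.inl i) hy) ((g.cd_f i).contDiffAt.of_le (by norm_cast))
    (g.r_ne hy) (g.orth (.inl i) y.2)
  have h0 := (g.ori (.inl i) y hy).ne'
  obtain ⟨h1, h2⟩ := g.sq (.inl i)
  simp only [qn]
  field_simp
  simp only [JS, sg, Js, P]
  linear_combination -(M.ε (.inl i) * M.s (.inl i)) * h + (√2 + M.f i y) * M.s (.inl i) * h2

theorem qn_con (hy : M.R < y.1) : M.qn (.inr j) y = M.kn (.inr j) y * y.1 *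
    (1 - kap (M.γ j) (M.n j) y.2 * M.g j (Real.log y.1, y.2)) := by
  have h := con_nu g.shr g.smw (g.link j) (g.ended.cone j) (one_pos.trans (g.pos hy))
    (g.pc (.inr j) hy) (g.orth (.inr j) y.2)
  have h0 := (g.ori (.inr j) y hy).ne'
  obtain ⟨h1, h2⟩ := g.sq (.inr j)
  simp only [qn, kn]
  field_simp
  simp only [JS, sg, Js, P]
  generalize 1 - kap (M.γ j) (M.n j) y.2 * M.g j (Real.log y.1, y.2) = x at h ⊢
  linear_combination M.ε (.inr j) * M.s (.inr j) * h + spd (M.γ j) * y.1 * x * M.s (.inr j) * h2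

/-- the factor `q` is bounded above and below -/
theorem qn_mem (e : M.I) (hy : M.R < y.1) : M.s e * M.qn e y ∈ Icc (1 / 8) 1 := by
  have h1 := g.sgn e y hy
  have h2 := abs_real_inner_le_norm (gradient M.w (M.P e y)) (M.nE e y.2)
  have h3 : |M.s e| = 1 := by
    rw [← sq_eq_sq₀ (abs_nonneg _) zero_le_one, sq_abs, pow_two, (g.sq e).1, one_pow]
  have h4 := le_abs_self (M.s e * ⟪gradient M.w (M.P e y), M.nE e y.2⟫)
  rw [abs_mul, h3] at h4
  rw [g.norm_nu (g.mem e y hy)] at h2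
  rcases e with i | j
  · simp only [nE, (on_Q _ _).aa, g.nu_er hy] at h1 h2 h4
    obtain ⟨r1, r2⟩ := g.r_mem (i := i) hy
    generalize √2 + M.f i y = r at *
    have : 0 < M.s (.inl i) * M.qn (.inl i) y := by nlinarith
    constructor <;> nlinarith
  · simp only [nE, (g.link j).unit_n] at h1 h2 h4
    exact ⟨le_trans (by norm_num) h1, by simp only [qn]; linarith⟩

theorem qn_ne (e : M.I) (hy : M.R < y.1) : M.qn e y ≠ 0 := fun h => by
  have := (g.qn_mem e hy).1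
  norm_num [h] at this

theorem kn_ne (e : M.I) (hy : M.R < y.1) : M.kn e y ≠ 0 := by
  rcases e with i | j
  exacts [g.qn_ne (.inl i) hy,
    div_ne_zero (mul_ne_zero (g.spd_pos j).ne' (g.s_ne _)) (g.ori _ y hy).ne']

theorem cd_kn (e : M.I) (hy : M.R < y.1) : ContDiffAt ℝ ∞ (M.kn e) y := by
  rcases e with i | j
  exacts [contDiffAt_const.div (contDiffAt_const.mul (g.cd_JS _ hy))
    (mul_ne_zero two_ne_zero (g.ori _ y hy).ne'),
    contDiffAt_const.div (g.cd_JS _ hy) (g.ori _ y hy).ne']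

theorem cd_qn (e : M.I) (hy : M.R < y.1) : ContDiffAt ℝ ∞ (M.qn e) y := by
  rcases e with i | j
  exacts [g.cd_kn (.inl i) hy,
    (g.cd_nu _ hy).inner ℝ ((g.link j).smooth_n.contDiffAt.comp y contDiffAt_snd)]

theorem per_kn (e : M.I) : Per M.R (M.kn e) := fun z θ hz => by
  rcases e with i | j <;> simp only [kn, g.per_JS _ z θ hz]

theorem per_qn (e : M.I) : Per M.R (M.qn e) := fun z θ hz => by
  rcases e with i | j <;> simp only [qn, g.per_JS _ z θ hz, g.perP _ z θ hz, (g.link _).per_n]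

theorem g2_P (e : M.I) (hy : M.R < y.1) :
    g2 (jv (fun q => cx (M.P e q)) y 3) (jv (fun q => cx (M.P e q)) y 1) = M.JS e y ^ 2 := by
  rw [g2, cr_jv g.shr g.smw (g.pc e hy), smul_dt, dt_smul, nu, dt_cx, real_inner_self_eq_norm_sq,
    g.norm_nu (g.mem e y hy), ← Js, g.Js_eq]
  have : (M.sg e : ℂ) * M.sg e = 1 := by exact_mod_cast g.sg_sq e
  push_cast
  linear_combination (M.JS e y : ℂ) ^ 2 * this

omit g in
theorem sq_r (i : Fin M.n₁) (y : ℝ × ℝ) : ((√2 + M.f i y : ℝ) : ℂ) ^ 2 = VS (M.f i) y := by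
  simp [VS]

theorem vD_eq (hy : M.R < y.1) : vD (VS (M.f i) y) (jet (VS (M.f i)) 3 y) (jet (VS (M.f i)) 1 y) =
    4 * VS (M.f i) y * M.JS (.inl i) y ^ 2 := by
  have r0 : ((√2 + M.f i y : ℝ) : ℂ) ≠ 0 := by exact_mod_cast g.r_ne hy
  rw [← g.g2_P _ hy, g.jv_cyl hy, (g.orthQ i y.2).g2, ← sq_r]
  generalize ((√2 + M.f i y : ℝ) : ℂ) = r at r0
  simp only [g2, dt, cyJ, sqJ, vD, P218N.cr0, P218N.cr1, P218N.cr2, Matrix.cons_val]
  field_simp
  ring

theorem vD_ne (hy : M.R < y.1) :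
    vD (VS (M.f i) y) (jet (VS (M.f i)) 3 y) (jet (VS (M.f i)) 1 y) ≠ 0 := by
  rw [g.vD_eq hy, ← sq_r]
  exact mul_ne_zero (mul_ne_zero (by norm_num) (pow_ne_zero 2 (by exact_mod_cast g.r_ne hy)))
    (pow_ne_zero 2 (by exact_mod_cast (g.ori _ y hy).ne'))

theorem kD_eq (hy : M.R < y.1) : (y.1 : ℂ) ^ 2 * kD (spd (M.γ j) : ℂ) (kap (M.γ j) (M.n j) y.2)
    (uS (M.g j) y / y.1) (jet (uS (M.g j)) 1 y / y.1) (jet (uS (M.g j)) 3 y) =
      M.JS (.inr j) y ^ 2 := by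
  rw [← g.g2_P _ hy, g.jv_con hy, (g.orthK j y.2).g2]
  exact (e2_cone (by exact_mod_cast (one_pos.trans (g.pos hy)).ne') _ _ 0 _ _ _ 0 0 0).2.symm

/-- the operator on jets of a cylindrical end -/
theorem eJ_cyl (i : Fin M.n₁) (θ : ℝ) {t r z : ℂ} {V : Fin 6 → ℂ} (h : r ^ 2 = V 0) (r0 : r ≠ 0)
    (hD : vD (V 0) (V 3) (V 1) ≠ 0) :
    eJ t (fun k => FQ (M.Q i) θ (cyJ (sqJ r V) z 1 0 k)) = -M.ε (.inl i) * vJ t z V := by
  simpa [vJ] using (cylj (M.Q i)).2.2.2.2 _ _ t r z 1 0 V (g.orthQ i θ) h r0 one_ne_zero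
    (by simpa using hD)

/-- **the equation of a cylindrical end** -/
theorem eq_cyl (hy : M.R < y.1) : vJ 1 y.1 (fun k => jet (VS (M.f i)) k y) = 0 := by
  have := (P218T.cov _ _ _ _ g.shr g.smw _ y (g.pc (.inl i) hy)).2.2.2.1
  rw [g.jv_cyl hy, g.eJ_cyl i _ (V := fun k => jet (VS (M.f i)) k y) (sq_r i y)
    (Complex.ofReal_ne_zero.2 (g.r_ne hy)) (g.vD_ne hy)] at this
  exact (mul_eq_zero.1 this).resolve_left (by exact_mod_cast neg_ne_zero.2 (g.e_ne _))

/-- **the equation of a conical end** -/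
theorem eq_con (hy : M.R < y.1) :
    kJ (M.γ j) (M.n j) y.2 (jk y.1 fun k => jet (uS (M.g j)) k y) = 0 :=
  con_eq g.shr g.smw (g.link j) (g.ended.cone j) (one_pos.trans (g.pos hy)) (g.pc (.inr j) hy)

/-- **the linearisation in a chart** -/
theorem lin (e : M.I) (hy : M.R < y.1) {Y : ℝ × ℝ → V3} {F : ℝ × ℝ → ℂ} (pY : Per M.R Y)
    (pF : Per M.R F) (hY : ContDiffAt ℝ 2 Y y)
    (hF : ∀ q : ℝ × ℝ, M.R < q.1 → dt (Y q) (nu M.w (M.P e q)) = F q) {J : ℂ → Fin 6 → V3}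
    (J0 : J 0 = jv (fun q => cx (M.P e q)) y) (hJ : HasDerivAt J (jv Y y) 0) :
    HasDerivAt (fun s => eJ 1 (J s)) (M.Js e y * (2 * op (sa M.w) (M.lift e F) (M.P e y))) 0 := by
  rw [← jv_congr (g.lift_P_ev pY hy)] at hJ
  have := (P218T.cov _ _ _ _ g.shr g.smw _ y (g.pc e hy)).2.2.2.2.2.2 _ J
    (g.lift_cd pY hy (by norm_cast) hY) J0 hJ
  have k : (fun x => dt (M.lift e Y x) (nu M.w x)) =ᶠ[𝓝 (M.P e y)] M.lift e F := by
    filter_upwards [g.P_nhds hy univ_mem]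
    rintro _ ⟨a, ha, rfl⟩
    rw [g.lift_Ph pY ha.2, g.lift_Ph pF ha.2, ← hF _ ha.2.1, nu, nu, g.nu_Ph e ha.2]
  rwa [P218H.op_congr k] at this

/-- **the linearisation on a cylindrical end**: `D vv [F] = L (q F) / q` -/
theorem lin_cyl (hy : M.R < y.1) {F : ℝ × ℝ → ℂ} (pF : Per M.R F) (hF : ContDiffAt ℝ 2 F y)
    {V : ℂ → Fin 6 → ℂ} (V0 : V 0 = fun k => jet (VS (M.f i)) k y)
    (hV : HasDerivAt V (fun k => jet F k y) 0) : HasDerivAt (fun s => vJ 1 y.1 (V s))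
      (op (sa M.w) (M.lift (.inl i) fun q => M.qn (.inl i) q * F q) (M.P (.inl i) y) /
        M.kn (.inl i) y) 0 := by
  set r : ℝ × ℝ → ℂ := fun q => (√2 + M.f i q : ℝ)
  have r0 : ∀ q : ℝ × ℝ, M.R < q.1 → r q ≠ 0 := fun q hq => Complex.ofReal_ne_zero.2 (g.r_ne hq)
  have cr : ContDiffAt ℝ 2 r y :=
    cd_ofReal (contDiffAt_const.add ((g.cd_f i).contDiffAt.of_le (by norm_cast)))
  have cρ : ContDiffAt ℝ 2 (fun q => F q * (2 * r q)⁻¹) y :=
    hF.mul ((contDiffAt_const.mul cr).inv (mul_ne_zero two_ne_zero (r0 y hy)))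
  set a := fun k => jet r k y
  set b := fun k => jet (fun q => F q * (2 * r q)⁻¹) k y
  have e0 : jm a a = V 0 := V0 ▸ funext fun k => (jet_mul cr cr k).symm.trans
    (jet_congr (.of_forall fun q => by rw [← sq_r, pow_two]) k)
  have e1 : (fun k => jet F k y) = jm a b + jm b a := funext fun k => by
    rw [Pi.add_apply, ← jet_mul cr cρ, ← jet_mul cρ cr, ← jet_add (cr.mul cρ) (cρ.mul cr)]
    refine jet_congr ((ev_ht hy).mono fun q hq => ?_) k
    have := r0 q hq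
    field_simp
    ring
  have D0 : vD (V 0 0) (V 0 3) (V 0 1) ≠ 0 := V0 ▸ g.vD_ne hy
  have a0 : a 0 ≠ 0 := r0 y hy
  have h1 : HasDerivAt (fun s : ℂ => jm (a + s • b) (a + s • b)) (jm a b + jm b a) 0 := by
    have := (hd_line (jm a a) (jm a b + jm b a)).fun_add
      (((hasDerivAt_id (0 : ℂ)).fun_mul (hasDerivAt_id 0)).smul_const (jm b b))
    simp only [id, mul_zero, zero_mul, add_zero, zero_smul] at this
    refine this.congr_of_eventuallyEq (.of_forall fun s => funext fun k => ?_)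
    fin_cases k <;> simp [jm] <;> ring
  obtain ⟨-, -, c2, c3, -⟩ := cylj (M.Q i)
  have o := g.orthQ i y.2
  have h2 := g.lin (.inl i) hy (Y := fun q => FQ (M.Q i) q.2 ![F q * (2 * r q)⁻¹, 0, 0])
    (F := fun q => M.qn (.inl i) q * F q)
    (J := fun s k => FQ (M.Q i) y.2 (cyJ (a + s • b) y.1 1 0 k))
    (fun z θ hz => by simp [FQ, eR, eT, r, pF z θ hz, (g.ended.cyl i).per])
    ((g.per_qn _).comp₂ pF fun x u => x * u) (by
      simpa [FQ, fr] using cρ.fun_smul (cd_cxv (((Cy.eR_sm (M.Q i)).of_le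
        (by norm_cast)).contDiffAt.comp y contDiffAt_snd))) (fun q hq => by
      have := r0 q hq
      simp only [FQ, fr, Matrix.cons_val, zero_smul, add_zero, smul_dt, nu, dt_cx]
      rw [real_inner_comm, g.nu_er hq, Complex.ofReal_mul, Complex.ofReal_mul]
      simp only [r] at this ⊢
      field_simp
      rfl)
    (by rw [g.jv_cyl hy, ← c3 r _ y cr (.of_forall (sq_r i)) a0]; simp [a]) (by
      rw [c2 _ (fun _ => 0) (fun _ => 0) 0 y cρ (.of_forall fun z => hasDerivAt_const _ _)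
        contDiffAt_const (hasDerivAt_const _ _)]
      refine (hd_line (fun k => FQ (M.Q i) y.2 (cyJ a y.1 1 0 k)) _).congr_of_eventuallyEq
        (.of_forall fun s => funext fun k => ?_)
      simp only [Pi.add_apply, Pi.smul_apply, ← o.smul, ← o.add]
      congr 1
      fin_cases k <;> apply P218N.ext3 <;> simp [cyJ, b] <;> ring)
  refine hd_curve (V' := fun s => jm (a + s • b) (a + s • b))
    (d_vJ (by rw [← e0]; simpa [jm] using a0) D0) (by simpa using e0) hV (e1 ▸ h1) ?_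
  have q1 : (M.s (.inl i) : ℂ) * M.s (.inl i) = 1 := by exact_mod_cast (g.sq _).1
  have q2 : (M.ε (.inl i) : ℂ) * M.ε (.inl i) = 1 := by exact_mod_cast (g.sq _).2
  have c1 : ContinuousAt (fun s : ℂ => (a + s • b) 0) 0 := by fun_prop
  have c4 := continuousAt_pi.1 h1.continuousAt
  have c5 : ContinuousAt (fun s : ℂ => vD (jm (a + s • b) (a + s • b) 0)
      (jm (a + s • b) (a + s • b) 3) (jm (a + s • b) (a + s • b) 1)) 0 := by
    unfold vD
    fun_prop
  refine ((h2.const_mul (-M.ε (.inl i) : ℂ)).congr_of_eventuallyEq ?_).congr_deriv ?_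
  · filter_upwards [c1.eventually_ne (by simpa using a0),
      c5.eventually_ne (by simpa [e0] using D0)] with s s0 s1
    have := g.eJ_cyl i y.2 (t := 1) (z := y.1) (by simp [jm, pow_two]) s0 s1
    rw [show sqJ ((a + s • b) 0) (jm (a + s • b) (a + s • b)) = a + s • b by
      generalize a + s • b = x at s0
      funext k
      fin_cases k <;> simp [sqJ, jm] <;> field_simp <;> ring] at this
    rw [this]
    linear_combination -vJ 1 y.1 (jm (a + s • b) (a + s • b)) * q2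
  · have j0 : (M.JS (.inl i) y : ℂ) ≠ 0 := by exact_mod_cast (g.ori _ y hy).ne'
    have s0 : (M.s (.inl i) : ℂ) ≠ 0 := by exact_mod_cast g.s_ne _
    rw [g.Js_eq]
    simp only [kn, sg]
    push_cast
    field_simp
    generalize op (V := ℂ) (sa M.w) _ _ = x
    linear_combination x * M.ε (.inl i) * M.ε (.inl i) * q1 + x * q2

/-- **the linearisation on a conical end**: `D (kE / (2 l)) [F] = L (q F) / kp` -/
theorem lin_con (hy : M.R < y.1) {F : ℝ × ℝ → ℂ} (pF : Per M.R F) (hF : ContDiffAt ℝ 2 F y)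
    {u : ℂ → Fin 6 → ℂ} (u0 : u 0 = fun k => jet (uS (M.g j)) k y)
    (hu : HasDerivAt u (fun k => jet F k y) 0) :
    HasDerivAt (fun s => kJ (M.γ j) (M.n j) y.2 (jk y.1 (u s)) / (2 * spd (M.γ j)))
      (op (sa M.w) (M.lift (.inr j) fun q => M.qn (.inr j) q * F q) (M.P (.inr j) y) /
        M.kn (.inr j) y) 0 := by
  have l := g.link j
  obtain ⟨-, -, -, -, -, -, -, c2, c3⟩ := conj' _ _ l
  have o := g.orthK j y.2
  have z0 : (y.1 : ℂ) ≠ 0 := by exact_mod_cast (one_pos.trans (g.pos hy)).ne'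
  have j0 : (M.JS (.inr j) y : ℂ) ≠ 0 := by exact_mod_cast (g.ori _ y hy).ne'
  have cY : ContDiffAt ℝ 2 (fun q => F q • cx (M.n j q.2)) y :=
    hF.smul (cd_cxv ((l.smooth_n.of_le (by norm_cast)).contDiffAt.comp y contDiffAt_snd))
  have cX : ContDiffAt ℝ 2 (fun q : ℝ × ℝ => (q.1 : ℂ) • cx (M.γ j q.2)) y :=
    (cd_ofReal contDiffAt_fst).smul
      (cd_cxv ((l.smooth.of_le (by norm_cast)).contDiffAt.comp y contDiffAt_snd))
  have e1 := c2 F y hF
  have e2 := c2 (fun _ => 0) y contDiffAt_const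
  have e3 : (fun i => jet (fun _ => 0) i y) = 0 := by
    funext k
    fin_cases k <;> simp [jet]
  simp only [FK, fr, Matrix.cons_val, zero_smul, add_zero] at e1 e2
  rw [jv_add cX cY, e2, e3, add_comm, ← eq_sub_iff_add_eq] at e1
  set b := fun k => jet F k y
  have h2 := g.lin (.inr j) hy (Y := fun q => F q • cx (M.n j q.2))
    (F := fun q => M.qn (.inr j) q * F q)
    (J := fun s k => FK (M.γ j) (M.n j) y.2 (coJ (spd (M.γ j)) (kap (M.γ j) (M.n j) y.2)
      (deriv (kap (M.γ j) (M.n j)) y.2 : ℝ) y.1 (u 0 + s • b) k))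
    (fun z θ hz => by simp only [pF z θ hz, l.per_n])
    ((g.per_qn _).comp₂ pF fun x u => x * u) cY (fun q _ => by
      rw [smul_dt, nu, dt_cx, real_inner_comm, mul_comm]
      rfl) (by rw [g.jv_con hy, ← u0]; simp) (by
      rw [e1]
      refine (hd_line (fun k => FK (M.γ j) (M.n j) y.2 (coJ (spd (M.γ j)) (kap (M.γ j) (M.n j) y.2)
        (deriv (kap (M.γ j) (M.n j)) y.2 : ℝ) y.1 (u 0) k)) _).congr_of_eventuallyEq
        (.of_forall fun s => funext fun k => funext fun i => ?_)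
      fin_cases k <;> simp [coJ, FK, fr] <;> ring)
  simp only [c3 _ _ _ _ _ o z0] at h2
  refine hd_curve (φ := fun x => kJ (M.γ j) (M.n j) y.2 (jk y.1 x) / (2 * spd (M.γ j)))
    (V' := fun s => u 0 + s • b) (((d_kJ ?_).comp _ (d_jk _ _)).mul_const _) (by simp) hu
    (hd_line _ _) ?_
  · have := g.kD_eq (j := j) hy
    rw [u0]
    intro k
    simp only [jk, Matrix.cons_val] at k
    exact pow_ne_zero 2 j0 (this.symm.trans (mul_eq_zero_of_right _ k))
  have q1 : (M.s (.inr j) : ℂ) * M.s (.inr j) = 1 := by exact_mod_cast (g.sq _).1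
  have q2 : (M.ε (.inr j) : ℂ) * M.ε (.inr j) = 1 := by exact_mod_cast (g.sq _).2
  refine (((h2.const_mul (M.ε (.inr j) : ℂ)).div_const (2 * spd (M.γ j))).congr_of_eventuallyEq
    (.of_forall fun s => by simp only [← mul_assoc, q2, one_mul])).congr_deriv ?_
  have s0 : (M.s (.inr j) : ℂ) ≠ 0 := by exact_mod_cast g.s_ne _
  have l0 : (spd (M.γ j) : ℂ) ≠ 0 := by exact_mod_cast (g.spd_pos j).ne'
  rw [g.Js_eq]
  simp only [kn, sg]
  push_cast
  field_simp
  generalize op (V := ℂ) (sa M.w) _ _ = x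
  linear_combination x * M.ε (.inr j) * M.ε (.inr j) * q1 + x * q2

end Geo

end Mod

end Vale.Agent.P218T
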