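import Vale.Agent.P218T.Geo

/-! # P218C: jets in the moving frames of cylinders and cones -/

set_option linter.all false

open MeasureTheory Set Filter Topology
open scoped ContDiff RealInnerProductSpace Real

noncomputable section

namespace Vale.Agent.P218T

open Vale.Agent.P218N (V3 cx cr dt e2 g2 hn vv vD kE fr Orth orth_fr ext3 cr0 cr1 cr2 e2_cyl e2_cone)
open Vale.Agent.P218W (jet DD DL DD_ext DD_apply DD_self DL_apply)

namespace Frm

/-- `a` is the two-jet of `F` at `y` -/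
def LJ (F : ℝ × ℝ → ℂ) (y : ℝ × ℝ) (a : Fin 6 → ℂ) : Prop := ∃ A B : ℝ × ℝ → ℂ, F y = a 0 ∧
  (∀ᶠ q in 𝓝 y, HasFDerivAt F (DD (A q) (B q)) q) ∧ A y = a 3 ∧ B y = a 1 ∧
    HasFDerivAt A (DD (a 5) (a 4)) y ∧ HasFDerivAt B (DD (a 4) (a 2)) y

variable {F G : ℝ × ℝ → ℂ} {y : ℝ × ℝ} {a b : Fin 6 → ℂ}

theorem LJ.jet (h : LJ F y a) (k : Fin 6) : jet F k y = a k := by
  obtain ⟨A, B, h0, h1, h2, h3, h4, h5⟩ := h
  have e : fderiv ℝ F =ᶠ[𝓝 y] fun q => DL (A q, B q) := h1.mono fun q hq => hq.fderiv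
  have d : HasFDerivAt (fun q => DL (A q, B q)) _ y := DL.hasFDerivAt.comp y (h4.prodMk h5)
  have d' := e.fderiv_eq.trans d.fderiv
  fin_cases k <;> simp [P218W.jet, d', e.eq_of_nhds, DL_apply, h0, h2, h3]

theorem lj (h : ContDiffAt ℝ 2 F y) : LJ F y fun k => jet F k y := by
  have d : ∀ w, HasFDerivAt (fun p => fderiv ℝ F p w) ((fderiv ℝ (fderiv ℝ F) y).flip w) y :=
    fun w => by
      simpa using ((h.fderiv_right (m := 1) le_rfl).differentiableAt one_ne_zero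
        ).hasFDerivAt.clm_apply (hasFDerivAt_const w y)
  refine ⟨_, _, rfl, (h.eventually (by simp)).mono fun q hq =>
    (hq.differentiableAt two_ne_zero).hasFDerivAt.congr_fderiv (DD_self _), rfl, rfl,
    (d _).congr_fderiv ((DD_self _).trans ?_), (d _).congr_fderiv (DD_self _)⟩
  exact congrArg _ ((h.isSymmSndFDerivAt (by simp)).eq _ _)

theorem LJ.congr (h : LJ F y a) (e : G =ᶠ[𝓝 y] F) : LJ G y a := by
  obtain ⟨A, B, h0, h1, h2⟩ := h
  exact ⟨A, B, e.eq_of_nhds.trans h0,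
    (h1.and e.eventuallyEq_nhds).mono fun q hq => hq.1.congr_of_eventuallyEq hq.2, h2⟩

theorem LJ.add (h : LJ F y a) (k : LJ G y b) : LJ (fun q => F q + G q) y (a + b) := by
  obtain ⟨A, B, h0, h1, h2, h3, h4, h5⟩ := h
  obtain ⟨A', B', k0, k1, k2, k3, k4, k5⟩ := k
  refine ⟨fun q => A q + A' q, fun q => B q + B' q, by simp [*], (h1.and k1).mono fun q hq =>
    (hq.1.add hq.2).congr_fderiv ?_, by simp [*], by simp [*], (h4.add k4).congr_fderiv ?_,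
    (h5.add k5).congr_fderiv ?_⟩ <;> refine DD_ext fun v => ?_ <;> simp <;> ring

/-- the jet of a product -/
def jm (a b : Fin 6 → ℂ) : Fin 6 → ℂ :=
  ![a 0 * b 0, a 1 * b 0 + a 0 * b 1, a 2 * b 0 + 2 * a 1 * b 1 + a 0 * b 2, a 3 * b 0 + a 0 * b 3,
    a 4 * b 0 + a 3 * b 1 + a 1 * b 3 + a 0 * b 4, a 5 * b 0 + 2 * a 3 * b 3 + a 0 * b 5]

theorem LJ.mul (h : LJ F y a) (k : LJ G y b) : LJ (fun q => F q * G q) y (jm a b) := by
  obtain ⟨A, B, h0, h1, h2, h3, h4, h5⟩ := h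
  obtain ⟨A', B', k0, k1, k2, k3, k4, k5⟩ := k
  have h6 := h1.self_of_nhds
  have k6 := k1.self_of_nhds
  refine ⟨fun q => A q * G q + F q * A' q, fun q => B q * G q + F q * B' q, by simp [jm, *],
    (h1.and k1).mono fun q hq => (hq.1.mul hq.2).congr_fderiv ?_, by simp [jm, *], by simp [jm, *],
    ((h4.mul k6).add (h6.mul k4)).congr_fderiv ?_,
    ((h5.mul k6).add (h6.mul k5)).congr_fderiv ?_⟩ <;> refine DD_ext fun v => ?_ <;>
    simp [jm, h0, h2, h3, k0, k2, k3] <;> ring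

theorem lj_z {ζ ζ₁ : ℝ → ℂ} {ζ₂ : ℂ} (h : ∀ᶠ z in 𝓝 y.1, HasDerivAt ζ (ζ₁ z) z)
    (k : HasDerivAt ζ₁ ζ₂ y.1) : LJ (fun q => ζ q.1) y ![ζ y.1, 0, 0, ζ₁ y.1, 0, ζ₂] := by
  refine ⟨fun q => ζ₁ q.1, fun _ => 0, rfl, (continuousAt_fst.eventually h).mono fun q hq =>
    (hq.hasFDerivAt.comp q hasFDerivAt_fst).congr_fderiv ?_, rfl, rfl,
    (k.hasFDerivAt.comp y hasFDerivAt_fst).congr_fderiv ?_,
    (hasFDerivAt_const _ _).congr_fderiv ?_⟩ <;> refine DD_ext fun v => ?_ <;> simp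

theorem lj_t {φ φ₁ : ℝ → ℂ} {φ₂ : ℂ} (h : ∀ θ, HasDerivAt φ (φ₁ θ) θ)
    (k : HasDerivAt φ₁ φ₂ y.2) : LJ (fun q => φ q.2) y ![φ y.2, φ₁ y.2, φ₂, 0, 0, 0] := by
  refine ⟨fun _ => 0, fun q => φ₁ q.2, rfl, .of_forall fun q =>
    ((h q.2).hasFDerivAt.comp q hasFDerivAt_snd).congr_fderiv ?_, rfl, rfl,
    (hasFDerivAt_const _ _).congr_fderiv ?_,
    (k.hasFDerivAt.comp y hasFDerivAt_snd).congr_fderiv ?_⟩ <;> refine DD_ext fun v => ?_ <;> simp

theorem hd_cx {a : ℝ → E3} {a' : E3} {θ : ℝ} (h : HasDerivAt a a' θ) (i : Fin 3) :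
    HasDerivAt (fun θ => cx (a θ) i) (cx a' i) θ :=
  ((EuclideanSpace.proj i : E3 →L[ℝ] ℝ).hasFDerivAt.comp_hasDerivAt θ h).ofReal_comp

theorem lj_cx {a a₁ : ℝ → E3} {a₂ : E3} (h : ∀ θ, HasDerivAt a (a₁ θ) θ)
    (k : HasDerivAt a₁ a₂ y.2) (i : Fin 3) :
    LJ (fun q => cx (a q.2) i) y ![cx (a y.2) i, cx (a₁ y.2) i, cx a₂ i, 0, 0, 0] :=
  lj_t (fun θ => hd_cx (h θ) i) (hd_cx k i)

theorem dt_cx (a b : E3) : dt (cx a) (cx b) = (⟪a, b⟫ : ℝ) := by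
  simp [dt, cx, PiLp.inner_apply, Fin.sum_univ_three, mul_comm]

/-- an orthonormal triple -/
structure On (a b c : E3) : Prop where
  aa : ‖a‖ = 1
  bb : ‖b‖ = 1
  cc : ‖c‖ = 1
  ab : ⟪a, b⟫ = 0
  ac : ⟪a, c⟫ = 0
  bc : ⟪b, c⟫ = 0

theorem On.exp {a b c : E3} (h : On a b c) (v : E3) :
    v = ⟪a, v⟫ • a + ⟪b, v⟫ • b + ⟪c, v⟫ • c := by
  have o : Orthonormal ℝ ![a, b, c] := by
    have := real_inner_comm a b
    have := real_inner_comm a c
    have := real_inner_comm b c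
    refine orthonormal_iff_ite.2 fun i j => ?_
    fin_cases i <;> fin_cases j <;> simp [h.aa, h.bb, h.cc, h.ab, h.ac, h.bc, *]
  simpa [Fin.sum_univ_three] using ((OrthonormalBasis.mk o
    (o.linearIndependent.span_eq_top_of_card_eq_finrank (by simp)).ge).sum_repr' v).symm

theorem On.cr {a b c : E3} (h : On a b c) :
    cr (cx a) (cx b) = dt (cr (cx a) (cx b)) (cx c) • cx c ∧ dt (cr (cx a) (cx b)) (cx c) ^ 2 = 1 ∧
      dt (cx a) (cx a) = 1 ∧ dt (cx b) (cx b) = 1 ∧ dt (cx a) (cx b) = 0 := by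
  have aa : dt (cx a) (cx a) = 1 := by simp [dt_cx, h.aa]
  have bb : dt (cx b) (cx b) = 1 := by simp [dt_cx, h.bb]
  have cc : dt (cx c) (cx c) = 1 := by simp [dt_cx, h.cc]
  have ab : dt (cx a) (cx b) = 0 := by simp [dt_cx, h.ab]
  have ac : dt (cx a) (cx c) = 0 := by simp [dt_cx, h.ac]
  have bc : dt (cx b) (cx c) = 0 := by simp [dt_cx, h.bc]
  suffices e : P218N.cr (cx a) (cx b) = dt (P218N.cr (cx a) (cx b)) (cx c) • cx c by
    refine ⟨e, ?_, aa, bb, ab⟩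
    rw [sq, ← P218N.dt_smul, ← e]
    simp only [dt, cr0, cr1, cr2] at *
    linear_combination (cx b 0 * cx b 0 + cx b 1 * cx b 1 + cx b 2 * cx b 2) * aa + bb -
      (cx a 0 * cx b 0 + cx a 1 * cx b 1 + cx a 2 * cx b 2) * ab
  generalize cx a = a at *
  generalize cx b = b at *
  generalize cx c = c at *
  apply ext3 <;> simp only [dt, cr0, cr1, cr2, Pi.smul_apply, smul_eq_mul] at *
  · linear_combination -(a 1 * b 2 - a 2 * b 1) * cc + (c 1 * b 2 - c 2 * b 1) * ac -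
      (c 1 * a 2 - c 2 * a 1) * bc
  · linear_combination -(a 2 * b 0 - a 0 * b 2) * cc + (c 2 * b 0 - c 0 * b 2) * ac -
      (c 2 * a 0 - c 0 * a 2) * bc
  · linear_combination -(a 0 * b 1 - a 1 * b 0) * cc + (c 0 * b 1 - c 1 * b 0) * ac -
      (c 0 * a 1 - c 1 * a 0) * bc

theorem orth_all {a b c : ℝ → E3} (ha : Continuous a) (hb : Continuous b) (hc : Continuous c)
    (h : ∀ θ, On (a θ) (b θ) (c θ)) :
    ∃ ε : ℝ, ε * ε = 1 ∧ ∀ θ, Orth (fr (cx (a θ)) (cx (b θ)) (cx (c θ))) ε := by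
  have k : ∀ ε : ℝ, ε * ε = 1 → (∀ θ, dt (cr (cx (a θ)) (cx (b θ))) (cx (c θ)) = ε) →
      ∃ ε : ℝ, ε * ε = 1 ∧ ∀ θ, Orth (fr (cx (a θ)) (cx (b θ)) (cx (c θ))) ε := fun ε e k =>
    ⟨ε, e, fun θ => orth_fr (h θ).cr.2.2.1 (h θ).cr.2.2.2.1 (h θ).cr.2.2.2.2
      (k θ ▸ (h θ).cr.1) (by exact_mod_cast e)⟩
  rcases isPreconnected_univ.eq_one_or_eq_neg_one_of_sq_eq
    (f := fun θ => dt (cr (cx (a θ)) (cx (b θ))) (cx (c θ))) (Continuous.continuousOn (by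
      simp only [dt, cr0, cr1, cr2, cx]; fun_prop)) (fun θ _ => (h θ).cr.2.1) with e | e
  · exact k 1 (by simp) fun θ => by simpa using e (mem_univ θ)
  · exact k (-1) (by simp) fun θ => by simpa using e (mem_univ θ)

theorem e2_swap (t : ℂ) (X a b aa ab bb : V3) : e2 t X b a bb ab aa = -e2 t X a b aa ab bb := by
  have : g2 b a = g2 a b := by simp only [g2, dt, cr0, cr1, cr2]; ring
  simp only [e2, this, hn, dt, cr0, cr1, cr2]
  ring

theorem hd_eR (Q : E3 ≃ₗᵢ[ℝ] E3) (θ : ℝ) :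
    HasDerivAt (eR Q) (eT Q θ) θ ∧ HasDerivAt (eT Q) (-eR Q θ) θ := by
  have e : ∀ a b : ℝ, Q !₂[a, b, 0] = a • Q !₂[1, 0, 0] + b • Q !₂[0, 1, 0] := fun a b => by
    rw [← map_smul, ← map_smul, ← map_add]
    congr 1
    ext i
    fin_cases i <;> simp
  unfold eR eT
  simp only [e (Real.cos _), e (-Real.sin _)]
  exact ⟨((Real.hasDerivAt_cos θ).smul_const _).add ((Real.hasDerivAt_sin θ).smul_const _),
    (((Real.hasDerivAt_sin θ).neg.smul_const _).add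
      ((Real.hasDerivAt_cos θ).smul_const _)).congr_deriv (by simp [add_comm])⟩

theorem on_Q (Q : E3 ≃ₗᵢ[ℝ] E3) (θ : ℝ) : On (eR Q θ) (eT Q θ) (axis Q) := by
  constructor <;> simp [eR, eT, axis, EuclideanSpace.norm_eq, PiLp.inner_apply, Fin.sum_univ_three,
    Q.inner_map_map, mul_comm]

theorem dz {a b : ℝ → E3} {a' b' : E3} {θ c : ℝ} (ha : HasDerivAt a a' θ) (hb : HasDerivAt b b' θ)
    (h : ∀ θ, ⟪a θ, b θ⟫ = c) : ⟪a θ, b'⟫ + ⟪a', b θ⟫ = 0 := by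
  have := ha.inner ℝ hb
  simp only [h] at this
  exact this.unique (hasDerivAt_const θ c)

theorem dz1 {a : ℝ → E3} {a' : E3} {θ : ℝ} (ha : HasDerivAt a a' θ) (h : ∀ θ, ‖a θ‖ = 1) :
    ⟪a θ, a'⟫ = 0 := by
  have := dz ha ha (c := 1) fun θ => by simp [h]
  rw [real_inner_comm (a θ)] at this
  linarith

variable {γ n : ℝ → E3}

theorem spd_eq (h : IsLink γ n) : 0 < spd γ ∧ ∀ θ, ‖deriv γ θ‖ = spd γ := by
  obtain ⟨l, l0, hl⟩ := h.speed
  simp [spd, hl, l0]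

theorem sd {a : ℝ → E3} (h : ContDiff ℝ ∞ a) : ContDiff ℝ ∞ (deriv a) :=
  (contDiff_infty_iff_deriv.1 h).2

theorem hd {a : ℝ → E3} (h : ContDiff ℝ ∞ a) (θ : ℝ) : HasDerivAt a (deriv a θ) θ :=
  (h.differentiable (by simp) θ).hasDerivAt

theorem s_tn (h : IsLink γ n) : ContDiff ℝ ∞ (tn γ) := (sd h.smooth).const_smul _

theorem s_kap (h : IsLink γ n) : ContDiff ℝ ∞ (kap γ n) :=
  ((sd h.smooth_n).inner ℝ (sd h.smooth)).neg.div_const _

theorem d_gam (h : IsLink γ n) (θ : ℝ) : deriv γ θ = spd γ • tn γ θ := by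
  rw [tn, smul_smul, mul_inv_cancel₀ (spd_eq h).1.ne', one_smul]

theorem on_K (h : IsLink γ n) (θ : ℝ) : On (γ θ) (tn γ θ) (n θ) := by
  obtain ⟨l0, hl⟩ := spd_eq h
  refine ⟨h.unit θ, by simp [tn, norm_smul, hl, abs_of_pos l0, l0.ne'], h.unit_n θ, ?_,
    (real_inner_comm _ _).trans (h.perp θ), (real_inner_comm _ _).trans ?_⟩
  · rw [tn, real_inner_smul_right, dz1 (hd h.smooth θ) h.unit, mul_zero]
  · rw [tn, real_inner_smul_right, h.perp', mul_zero]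

theorem d_n (h : IsLink γ n) (θ : ℝ) : deriv n θ = -kap γ n θ • deriv γ θ := by
  have := dz (hd h.smooth_n θ) (hd h.smooth θ) h.perp
  rw [h.perp', zero_add, real_inner_comm] at this
  rw [(on_K h θ).exp (deriv n θ), this, dz1 (hd h.smooth_n θ) h.unit_n, tn, real_inner_smul_left,
    kap, real_inner_comm, smul_smul, zero_smul, zero_smul, zero_add, add_zero]
  congr 1
  ring

theorem d_tn (h : IsLink γ n) (θ : ℝ) :
    HasDerivAt (tn γ) (-spd γ • γ θ + (spd γ * kap γ n θ) • n θ) θ := by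
  have o := on_K h
  have h1 := dz (hd h.smooth θ) (hd (s_tn h) θ) fun θ => (o θ).ab
  have h2 := dz (hd h.smooth_n θ) (hd (s_tn h) θ) fun θ => (real_inner_comm _ _).trans (o θ).bc
  simp only [d_n h θ, d_gam h θ, real_inner_smul_left, real_inner_self_eq_norm_sq, (o θ).bb] at h1 h2
  refine (hd (s_tn h) θ).congr_deriv ?_
  rw [(o θ).exp (deriv _ θ), dz1 (hd (s_tn h) θ) fun θ => (o θ).bb, zero_smul, add_zero]
  congr 2 <;> simp at h1 h2 <;> linarith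

end Frm

open Frm

theorem cylj : CYLJ := fun Q => by
  have c : ∀ θ, _ := hd_eR Q
  refine ⟨orth_all (continuous_iff_continuousAt.2 fun θ => (c θ).1.continuousAt)
    (continuous_iff_continuousAt.2 fun θ => (c θ).2.continuousAt) continuous_const (on_Q Q),
    fun f y => ?_, fun r ζ ζ₁ ζ₂ y hr h1 _ h2 => ?_, fun r V y hr h h0 => ?_,
    fun T ε t r ζ ζ₁ ζ₂ V hT h1 h2 h3 h4 => ?_⟩
  · have : cylPt Q f y = (√2 + f y) • eR Q y.2 + y.1 • axis Q := by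
      rw [cylPt, eR, axis, ← map_smul, ← map_smul, ← map_add]
      congr 1
      ext i
      fin_cases i <;> simp
    ext i
    simp [this, FQ, fr, cx]
  · ext k i
    have := (((lj hr).mul (lj_cx (fun θ => (c θ).1) (c y.2).2 i)).add ((lj_z h1 h2).mul
      (lj_cx (fun θ => hasDerivAt_const θ (axis Q)) (hasDerivAt_const y.2 0) i))).jet k
    refine Eq.trans (by simp [jv, FQ, fr]) (this.trans ?_)
    fin_cases k <;> simp [jm, FQ, fr, cyJ, cx] <;> ring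
  · have := (((lj hr).mul (lj hr)).congr (G := V) (h.mono fun q hq => by rw [← hq, sq])).jet
    have e : jet r 0 y = r y := rfl
    ext i
    fin_cases i <;> simp [sqJ, this, jm, e] <;> field_simp <;> ring
  · rw [eJ, hT.e2, e2_swap, ← h1, neg_mul, mul_assoc,
      ← e2_cyl h2 h3 t ζ ζ₂ (V 3) (V 1) (V 5) (V 4) (V 2) (h1 ▸ h4), mul_neg]
    have : 2 * (V 1 / (2 * r)) = V 1 / r := by field_simp
    simp [cyJ, sqJ, this]

theorem conj' : CONJ := fun γ n h => by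
  have p : ∀ a : ℝ → E3, (∀ θ, a (θ + 2 * π) = a θ) → ∀ θ, deriv a (θ + 2 * π) = deriv a θ :=
    fun a ha θ => by rw [← deriv_comp_add_const]; simp only [ha]
  refine ⟨(spd_eq h).1, (spd_eq h).2, s_kap h, fun θ => by simp only [kap, p _ h.per, p _ h.per_n],
    d_n h, orth_all h.smooth.continuous (s_tn h).continuous h.smooth_n.continuous (on_K h),
    fun g y hy => ?_, fun u y hu => ?_, fun T ε z θ u hT hz => ?_⟩
  · ext i
    simp [conP, conePt, Real.exp_log hy, FK, fr, cx, uS]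
    ring
  · ext k i
    have h1 : ∀ θ, HasDerivAt γ (spd γ • tn γ θ) θ := fun θ => d_gam h θ ▸ hd h.smooth θ
    have h2 : ∀ θ, HasDerivAt n (-kap γ n θ • spd γ • tn γ θ) θ := fun θ => by
      rw [← d_gam h, ← d_n h]; exact hd h.smooth_n θ
    have h3 := (d_tn h y.2).const_smul (spd γ)
    have h4 := ((s_kap h).differentiable (by simp) y.2).hasDerivAt.neg.smul h3
    have := (((lj_z (.of_forall fun z => (hasDerivAt_id z).ofReal_comp)
      (hasDerivAt_const y.1 _)).mul (lj_cx h1 h3 i)).add ((lj hu).mul (lj_cx h2 h4 i))).jet k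
    refine Eq.trans (by simp [jv, FK, fr]) (this.trans ?_)
    fin_cases k <;> simp [jm, FK, fr, coJ, cx] <;> ring
  · rw [eJ, hT.e2]
    exact congrArg _ (e2_cone hz _ _ _ _ _ _ _ _ _).1

end Vale.Agent.P218T
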