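import Vale.Agent.P218C.Lift
import Vale.Agent.P218C.Cov
import Vale.Agent.P218C.Frm
import Vale.Agent.P218C.Cyl
import Vale.Agent.P218C.Conw
import Vale.Agent.P218T.Conc

/-! The geometry of the ends exists. -/

open Set Filter Topology
open scoped ContDiff RealInnerProductSpace Real

noncomputable section

namespace Vale.Agent.P218T

open Vale.Agent.P218.H63 (IsTubeShrinker inner_gradient contDiff_gradient)
open Vale.Agent.P218N (V3 cx nu cr dt fr Orth smul_dt)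
open Vale.Agent.P218W (jet)
open Vale.Agent.P218T.Frm

namespace Ex

variable {S : Set E3} {w : E3 → ℝ} {δ C R K : ℝ} {P : ℝ × ℝ → E3} {y : ℝ × ℝ}

theorem perp (h : IsTubeShrinker S w δ C) (hP : Pc S P y) (v : ℝ × ℝ) :
    ⟪gradient w (P y), fderiv ℝ P y v⟫ = 0 := by
  have := ((h.smooth.differentiable (by simp) _).hasFDerivAt.comp y
    (hP.sm.differentiableAt (by simp)).hasFDerivAt).congr_of_eventuallyEq
    (f₁ := fun _ => (0 : ℝ)) (hP.mem.mono fun q hq => ((h.mem_iff _).1 hq).symm)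
  rw [inner_gradient]
  exact congrArg (· v) (this.unique (hasFDerivAt_const 0 y))

theorem cd_cx (p : E3) : ContDiffAt ℝ 2 cx p := P218N.Lp.cxL.contDiff.contDiffAt

theorem cr_jv (h : IsTubeShrinker S w δ C) (hw : ContDiff ℝ ∞ w) (hP : Pc S P y) :
    cr (jv (fun q => cx (P q)) y 3) (jv (fun q => cx (P q)) y 1) =
      (Jg w P y : ℂ) • nu w (P y) := by
  have d := (cd_cx (P y)).differentiableAt two_ne_zero
  rw [((cov S w δ C h hw P y hP).2.2.2.2.1 cx cx d d).1, P218N.Lp.pd_id, P218N.Lp.nn_id]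

/-- the component of the normal along a vector of the frame -/
theorem Jg_mul (h : IsTubeShrinker S w δ C) (hw : ContDiff ℝ ∞ w) (hP : Pc S P y) {T : V3 → V3}
    {ε : ℂ} (hT : Orth T ε) {J : Fin 6 → V3} (hJ : jv (fun q => cx (P q)) y = fun k => T (J k))
    {n : E3} {c : V3} (hc : cx n = T c) :
    (Jg w P y * ⟪gradient w (P y), n⟫ : ℝ) = ε * dt (cr (J 3) (J 1)) c := by
  have := congrArg (dt · (cx n)) (cr_jv h hw hP)
  simp only [hJ, smul_dt, nu, dt_cx] at this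
  rw [Complex.ofReal_mul, ← this, hT.cr, hc, smul_dt, hT.dt]

theorem cyl_jv (Q : E3 ≃ₗᵢ[ℝ] E3) {f : ℝ × ℝ → ℝ} (hf : ContDiffAt ℝ 2 f y) (h0 : √2 + f y ≠ 0) :
    jv (fun q => cx (cylPt Q f q)) y = fun k => FQ Q y.2
      (cyJ (sqJ (√2 + f y : ℝ) fun i => jet (VS f) i y) y.1 1 0 k) := by
  obtain ⟨-, h1, h2, h3, -⟩ := cylj Q
  have c : ContDiffAt ℝ 2 (fun q => ((√2 + f q : ℝ) : ℂ)) y :=
    Complex.ofRealCLM.contDiff.contDiffAt.comp y (contDiffAt_const.add hf)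
  simp only [h1]
  rw [h2 _ (fun z => z) (fun _ => 1) 0 y c (.of_forall fun z => Complex.ofRealCLM.hasDerivAt)
    contDiffAt_const (hasDerivAt_const _ _),
    h3 _ (VS f) y c (.of_forall fun q => by simp [VS]) (by exact_mod_cast h0)]

theorem con_jv {γ n : ℝ → E3} {g : ℝ × ℝ → ℝ} (h : IsLink γ n) (hg : Decays g) (hy : 0 < y.1) :
    jv (fun q => cx (conP γ n g q)) y = fun k => FK γ n y.2 (coJ (spd γ) (kap γ n y.2)
      (deriv (kap γ n) y.2 : ℝ) y.1 (fun i => jet (uS g) i y) k) := by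
  obtain ⟨-, -, -, -, -, -, h1, h2, -⟩ := conj' γ n h
  rw [← h2 _ y (((conw conj' γ n g h hg).1 y hy).of_le (by norm_cast))]
  funext k i
  have e : (fun q => cx (conP γ n g q) i) =ᶠ[𝓝 y] fun q => FK γ n q.2 ![q.1, 0, uS g q] i :=
    (ev_ht hy).mono fun q hq => congrFun (h1 g q hq) i
  fin_cases k <;> simp [jv, jet, e.eq_of_nhds, e.fderiv_eq, e.fderiv.fderiv_eq]

theorem cyl_nu (h : IsTubeShrinker S w δ C) (hw : ContDiff ℝ ∞ w) {Q : E3 ≃ₗᵢ[ℝ] E3}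
    {f : ℝ × ℝ → ℝ} (hP : Pc S (cylPt Q f) y) (hf : ContDiffAt ℝ 2 f y) (h0 : √2 + f y ≠ 0)
    {ε : ℝ} (hT : Orth (FQ Q y.2) ε) :
    Jg w (cylPt Q f) y * ⟪gradient w (cylPt Q f y), eR Q y.2⟫ = -(ε * (√2 + f y)) := by
  have := Jg_mul h hw hP hT (cyl_jv Q hf h0) (n := eR Q y.2) (c := ![1, 0, 0]) (by simp [FQ, fr])
  simp only [cyJ, sqJ, dt, P218N.cr0, Matrix.cons_val] at this
  exact Complex.ofReal_injective (this.trans (by push_cast; ring))

theorem con_nu (h : IsTubeShrinker S w δ C) (hw : ContDiff ℝ ∞ w) {γ n : ℝ → E3} {g : ℝ × ℝ → ℝ}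
    (hl : IsLink γ n) (hg : Decays g) (hy : 0 < y.1) (hP : Pc S (conP γ n g) y) {ε : ℝ}
    (hT : Orth (FK γ n y.2) ε) : Jg w (conP γ n g) y * ⟪gradient w (conP γ n g y), n y.2⟫ =
      ε * (spd γ * y.1 * (1 - kap γ n y.2 * g (Real.log y.1, y.2))) := by
  have := Jg_mul h hw hP hT (con_jv hl hg hy) (n := n y.2) (c := ![0, 0, 1]) (by simp [FK, fr])
  simp only [coJ, dt, P218N.cr2, Matrix.cons_val, jet, uS] at this
  exact Complex.ofReal_injective (this.trans (by push_cast; ring))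

theorem con_eq (h : IsTubeShrinker S w δ C) (hw : ContDiff ℝ ∞ w) {γ n : ℝ → E3} {g : ℝ × ℝ → ℝ}
    (hl : IsLink γ n) (hg : Decays g) (hy : 0 < y.1) (hP : Pc S (conP γ n g) y) :
    kJ γ n y.2 (jk y.1 fun i => jet (uS g) i y) = 0 := by
  obtain ⟨-, -, -, -, -, ⟨ε, e1, e2⟩, -, -, h3⟩ := conj' γ n hl
  have := (cov S w δ C h hw _ y hP).2.2.2.1
  rw [con_jv hl hg hy, h3 _ _ _ _ _ (e2 _) (by exact_mod_cast hy.ne')] at this
  refine (mul_eq_zero.1 this).resolve_left fun e => ?_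
  have : ε = 0 := by exact_mod_cast e
  simp [this] at e1

theorem nr_mono {d b : ℝ → E3} {l : ℝ → ℝ} {η R' : ℝ} (k : Nr P d b l R η) (r : R ≤ R') :
    Nr P d b l R' η := fun y hy => k y (r.trans_lt hy)

theorem pc_of (c : Cht P R K) (m : ∀ y : ℝ × ℝ, R < y.1 → P y ∈ S) (hy : R < y.1) : Pc S P y :=
  ⟨c.sm y hy, (ev_ht hy).mono m, fun v hv => by simpa [hv] using c.lo y hy v⟩

/-- the sign of the normal -/
theorem sign (h : IsTubeShrinker S w δ C) (c : Cht P R K) (m : ∀ y : ℝ × ℝ, R < y.1 → P y ∈ S)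
    {d b n : ℝ → E3} {l : ℝ → ℝ} {η : ℝ} (hη : η ≤ 1 / 4) (k : Nr P d b l R η)
    (hl : ∀ z, R < z → 0 < l z) (o : ∀ θ, On (d θ) (b θ) (n θ)) (cn : Continuous n) :
    ∃ s : ℝ, s * s = 1 ∧ ∀ y : ℝ × ℝ, R < y.1 → 1 / 2 ≤ s * ⟪gradient w (P y), n y.2⟫ := by
  have h1 : ∀ y : ℝ × ℝ, R < y.1 → 1 / 4 ≤ ⟪gradient w (P y), n y.2⟫ ^ 2 := fun y hy => by
    have u : ‖gradient w (P y)‖ = 1 := h.norm_grad _ (by simpa [(h.mem_iff _).1 (m y hy)] using h.pos)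
    have p := perp h (pc_of c m hy)
    obtain ⟨-, k1, k2⟩ := k y hy
    generalize gradient w (P y) = ν at u p
    have a1 := abs_real_inner_le_norm ν (fderiv ℝ P y (1, 0) - d y.2)
    have a2 := abs_real_inner_le_norm ν (fderiv ℝ P y (0, 1) - l y.1 • b y.2)
    rw [inner_sub_right, p, u, zero_sub, abs_neg, one_mul] at a1 a2
    rw [inner_smul_right, abs_mul, abs_of_pos (hl _ hy)] at a2
    have a3 : |⟪ν, b y.2⟫| ≤ 1 / 4 := by nlinarith [hl _ hy]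
    have e := congrArg (⟪ν, ·⟫) ((o y.2).exp ν)
    simp only [inner_add_right, inner_smul_right, real_inner_self_eq_norm_sq, u,
      real_inner_comm ν] at e
    have a4 := sq_le_sq' (abs_le.1 (a1.trans (k1.trans hη))).1 (abs_le.1 (a1.trans (k1.trans hη))).2
    have a5 := sq_le_sq' (abs_le.1 a3).1 (abs_le.1 a3).2
    nlinarith
  have h2 : ContinuousOn (fun y : ℝ × ℝ => ⟪gradient w (P y), n y.2⟫) (Ioi R ×ˢ univ) :=
    fun y hy => (((contDiff_gradient h.smooth (n := 0) (by norm_num)).continuous.continuousAt.comp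
      (c.sm y hy.1).continuousAt).inner (cn.comp continuous_snd).continuousAt).continuousWithinAt
  have h3 := ((convex_Ioi R).prod (convex_univ (E := ℝ))).isPreconnected
  by_cases j : ∀ y : ℝ × ℝ, R < y.1 → 0 < ⟪gradient w (P y), n y.2⟫
  · exact ⟨1, one_mul 1, fun y hy => by nlinarith [h1 y hy, j y hy]⟩
  · push Not at j
    obtain ⟨y₀, j1, j2⟩ := j
    refine ⟨-1, by norm_num, fun y hy => ?_⟩
    by_contra j3
    obtain ⟨q, hq, e⟩ := h3.intermediate_value (a := y₀) (b := y) ⟨j1, trivial⟩ ⟨hy, trivial⟩ h2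
      ⟨j2, by nlinarith [h1 y hy]⟩
    have := h1 q hq.1
    simp only at e
    rw [e] at this
    norm_num at this

theorem sep {d d' p : E3} (hd : ‖d‖ = 1) (hd' : ‖d'‖ = 1) {z z' η : ℝ} (hz : 0 < z) (hz' : 0 < z')
    (η0 : 0 < η) (η1 : η ≤ 1) (h : ‖p - z • d‖ ≤ η * z) (h' : ‖p - z' • d'‖ ≤ η * z') :
    ‖d - d'‖ ≤ 2 * η := by
  have a1 : ‖z • d - z' • d'‖ ≤ η * (z + z') := by
    linarith [norm_sub_le_norm_sub_add_norm_sub (z • d) p (z' • d'), norm_sub_rev p (z • d)]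
  have a2 := pow_le_pow_left₀ (norm_nonneg _) a1 2
  have a3 := norm_sub_sq_real d d'
  rw [norm_sub_sq_real, norm_smul, norm_smul, inner_smul_left, inner_smul_right, hd, hd',
    Real.norm_of_nonneg hz.le, Real.norm_of_nonneg hz'.le, conj_trivial] at a2
  rw [hd, hd'] at a3
  refine abs_le_of_sq_le_sq' (le_of_mul_le_mul_left ?_ (mul_pos hz hz')) (by positivity) |>.2
  nlinarith [mul_nonneg (sub_nonneg.2 (pow_le_one₀ (n := 2) η0.le η1)) (sq_nonneg (z - z'))]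

theorem bdd {F : ℝ × ℝ → E3} (c : Continuous F) (p : ∀ z θ, F (z, θ + 2 * π) = F (z, θ))
    (a b : ℝ) : ∃ ρ, ∀ y : ℝ × ℝ, y.1 ∈ Icc a b → ‖F y‖ ≤ ρ := by
  obtain ⟨ρ, h⟩ := ((isCompact_Icc (a := a) (b := b)).prod
    (isCompact_Icc (a := 0) (b := 2 * π))).exists_bound_of_continuousOn c.continuousOn
  refine ⟨ρ, fun y hy => ?_⟩
  obtain ⟨θ, h1, h2⟩ := Per.red (R := y.1 - 1) (F := F) (fun z θ _ => p z θ) (sub_one_lt _) y.2
  exact h2 ▸ h (y.1, θ) ⟨hy, Ico_subset_Icc_self h1⟩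

/-- the directions of the ends -/
def dir (M : Mod) : M.I → ℝ → E3
  | .inl i => fun _ => axis (M.Q i)
  | .inr j => M.γ j

/-- what is needed of one end -/
structure One (M : Mod) (e : M.I) (η R K s ε : ℝ) : Prop where
  cht : Cht (M.P e) R K
  mem : ∀ y : ℝ × ℝ, R < y.1 → M.P e y ∈ M.S
  nr : ∀ y : ℝ × ℝ, R < y.1 → ‖M.P e y - y.1 • dir M e y.2‖ ≤ η * y.1
  sq : s * s = 1 ∧ ε * ε = 1
  orth : ∀ θ, Orth (M.Fr e θ) ε
  sgn : ∀ y : ℝ × ℝ, R < y.1 → 1 / 2 ≤ s * ⟪gradient M.w (M.P e y), M.nE e y.2⟫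
  sm : ∀ y : ℝ × ℝ, R < y.1 → e.elim (fun i => |M.f i y| ≤ 1 / 8)
    fun j => |kap (M.γ j) (M.n j) y.2 * M.g j (Real.log y.1, y.2)| ≤ 1 / 8

variable {M : Mod} (h : Ended M.S M.w M.δ M.C M.Q M.f M.γ M.n M.g M.R₀)
include h

theorem one {η : ℝ} (η0 : 0 < η) (η1 : η ≤ 1 / 4) (e : M.I) :
    ∃ R K s ε, One M e η R K s ε := by
  rcases e with i | j
  · obtain ⟨R, K, c, k⟩ := cyl (M.Q i) _ (h.cyl i) η η0
    obtain ⟨R₁, h1⟩ := (h.cyl i).lim 0 (1 / 8) (by norm_num)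
    obtain ⟨⟨ε, e1, e2⟩, -⟩ := cylj (M.Q i)
    obtain ⟨R', r0, r1, r2, r3⟩ : ∃ R', 0 ≤ R' ∧ R ≤ R' ∧ R₁ ≤ R' ∧ M.R₀ ≤ R' :=
      ⟨max (max 0 R) (max R₁ M.R₀), by simp, by simp, by simp, by simp⟩
    have c' := c.mono r1 r0 le_rfl
    have m : ∀ y : ℝ × ℝ, R' < y.1 → _ := fun y hy => h.cyl_mem i y (r3.trans hy.le)
    have o := on_Q (M.Q i)
    obtain ⟨s, s1, s2⟩ := sign h.tube c' m η1 (nr_mono k r1) (n := eR (M.Q i))
      (fun _ _ => Real.sqrt_pos.2 two_pos) (fun θ => ⟨(o θ).cc, (o θ).bb, (o θ).aa,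
        (real_inner_comm _ _).trans (o θ).bc, (real_inner_comm _ _).trans (o θ).ac,
        (real_inner_comm _ _).trans (o θ).ab⟩) (Cy.eR_sm (M.Q i)).continuous
    exact ⟨R', K, s, ε, c', m, fun y hy => (k y (r1.trans_lt hy)).1, ⟨s1, e1⟩, e2, s2,
      fun y hy => by simpa using h1 y (r2.trans hy.le)⟩
  · have l := h.link j
    have g := h.cone j
    obtain ⟨⟨R, r0, k, k'⟩, c⟩ := (con _ _ _ l g).imp (· η η0) id
    have m : ∀ y : ℝ × ℝ, Real.exp M.R₀ < y.1 → conP (M.γ j) (M.n j) (M.g j) y ∈ M.S :=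
      fun y hy => h.cone_mem j _ ((Real.le_log_iff_exp_le ((Real.exp_pos _).trans hy)).2 hy.le)
    obtain ⟨R₁, -, K₁, -, d⟩ := (conw conj' _ _ _ l g).2.2 (max R (Real.exp M.R₀)) fun y hy =>
      con_eq h.tube h.smooth l g (r0.trans (max_lt_iff.1 hy).1) ⟨(k' y (max_lt_iff.1 hy).1).1,
        (ev_ht (max_lt_iff.1 hy).2).mono m, (k' y (max_lt_iff.1 hy).1).2⟩
    obtain ⟨R₂, K, c⟩ := c R₁ K₁ d
    obtain ⟨l0, -, a1, a2, -, ⟨ε, e1, e2⟩, -⟩ := conj' _ _ l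
    obtain ⟨A, A1, a3⟩ := Co.j2_per a1 a2
    obtain ⟨R₃, h1⟩ := g.lim 0 (1 / (8 * A)) (by positivity)
    obtain ⟨R', r1, r2, r3, r4⟩ : ∃ R', R ≤ R' ∧ R₂ ≤ R' ∧ Real.exp M.R₀ ≤ R' ∧ Real.exp R₃ ≤ R' :=
      ⟨max (max R R₂) (max (Real.exp M.R₀) (Real.exp R₃)), by simp, by simp, by simp, by simp⟩
    have c' := c.mono r2 (r0.le.trans r1) le_rfl
    have m' : ∀ y : ℝ × ℝ, R' < y.1 → _ := fun y hy => m y (r3.trans_lt hy)
    obtain ⟨s, s1, s2⟩ := sign h.tube c' m' η1 (nr_mono k r1)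
      (fun z hz => mul_pos l0 (r0.trans (r1.trans_lt hz))) (on_K l) l.smooth_n.continuous
    refine ⟨R', K, s, ε, c', m', fun y hy => (k y (r1.trans_lt hy)).1, ⟨s1, e1⟩, e2, s2,
      fun y hy => ?_⟩
    have b1 := h1 (Real.log y.1, y.2)
      ((Real.le_log_iff_exp_le (r0.trans (r1.trans_lt hy))).2 (r4.trans hy.le))
    rw [norm_iteratedFDeriv_zero] at b1
    exact (abs_mul _ _).trans_le ((mul_le_mul (a3 y.2).h0 b1 (abs_nonneg _) (by linarith)).trans_eq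
      (by field_simp))

theorem dir_sep : ∀ᶠ η in 𝓝[>] (0 : ℝ), ∀ e e', e ≠ e' → ∀ θ θ',
    2 * η < ‖dir M e θ - dir M e' θ'‖ := by
  have c : ∀ e, IsCompact (range (dir M e)) := by
    rintro (i | j)
    · exact (finite_range_const).isCompact
    · exact Function.Periodic.compact_of_continuous (h.link j).per Real.two_pi_pos.ne'
        (h.link j).smooth.continuous
  simp only [eventually_all]
  intro e e' ne
  obtain ⟨D, D0, k⟩ := ((c e).prod (c e')).exists_forall_le' (f := fun a => ‖a.1 - a.2‖)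
    (by fun_prop) (a := 0) (by
      rintro ⟨_, _⟩ ⟨⟨θ, rfl⟩, θ', rfl⟩
      rw [norm_pos_iff, sub_ne_zero]
      rcases e with i | j <;> rcases e' with i' | j'
      exacts [fun k => ne (congrArg _ (h.axis_inj k)), h.axis_link _ _ _,
        (h.axis_link _ _ _).symm, fun k => ne (congrArg _ (h.link_link _ _ _ _ k))])
  filter_upwards [Ioo_mem_nhdsGT (half_pos D0)] with η hη θ θ'
  have : D ≤ ‖dir M e θ - dir M e' θ'‖ := k (_, _) ⟨mem_range_self θ, mem_range_self θ'⟩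
  linarith [hη.2]

theorem low (R : ℝ) : ∃ ρ, ∀ p ∈ M.S, ρ < ‖p‖ → ∃ e, ∃ y : ℝ × ℝ, R < y.1 ∧ M.P e y = p := by
  obtain ⟨ρ₀, h0⟩ := h.cover.exists_norm_le
  choose ρ₁ h1 using fun i => bdd (F := cylPt (M.Q i) (M.f i)) (by
    have := (h.cyl i).smooth.continuous
    have := (Cy.eR_sm (M.Q i)).continuous
    rw [Cy.cylPt_eq]
    fun_prop) (fun z θ => by simp [cylPt, (h.cyl i).per]) M.R₀ R
  choose ρ₂ h2 using fun j => bdd (F := conePt (M.γ j) (M.n j) (M.g j)) (by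
    have := (h.cone j).smooth.continuous
    have := (h.link j).smooth.continuous
    have := (h.link j).smooth_n.continuous
    unfold conePt
    fun_prop) (fun z θ => by simp [conePt, (h.cone j).per, (h.link j).per, (h.link j).per_n]) M.R₀ R
  obtain ⟨a, ha⟩ := Finite.exists_le ρ₁
  obtain ⟨b, hb⟩ := Finite.exists_le ρ₂
  refine ⟨max ρ₀ (max a b), fun p hp k => ?_⟩
  simp only [max_lt_iff] at k
  rcases not_not.1 fun j => (h0 p ⟨hp, j⟩).not_gt k.1 with j | j <;> rw [mem_iUnion] at j <;>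
    obtain ⟨i, y, hy, rfl⟩ := j
  · exact ⟨.inl i, y, not_le.1 fun r => ((h1 i y ⟨hy, r⟩).trans (ha i)).not_gt k.2.1, rfl⟩
  · refine ⟨.inr i, (Real.exp y.1, y.2), not_le.1 fun r => ((h2 i y ⟨hy, ?_⟩).trans (hb i)).not_gt
      k.2.2, by simp [Mod.P, conP]⟩
    linarith [Real.add_one_le_exp y.1]

end Ex

open Ex in
/-- **GEO** -/
theorem geo : GEO := by
  rintro S ⟨w, δ, C, n₁, n₂, Q, f, γ, n, g, R₀, h⟩
  let M : Mod := ⟨S, w, δ, C, n₁, n₂, Q, f, γ, n, g, R₀, 0, 0, 0, 0⟩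
  obtain ⟨η, d, η0, η1⟩ := ((dir_sep (M := M) h).and
    (Ioc_mem_nhdsGT (by norm_num : (0 : ℝ) < 1 / 4))).exists
  choose R K s ε o using one (M := M) h η0 η1
  obtain ⟨R₁, r1⟩ := Finite.exists_le R
  obtain ⟨K₁, k1⟩ := Finite.exists_le K
  obtain ⟨ρ, c⟩ := low (M := M) h R₁
  obtain ⟨R', a1, a2, a3⟩ : ∃ R', 1 ≤ R' ∧ R₁ ≤ R' ∧ ρ ≤ R' :=
    ⟨max 1 (max R₁ ρ), by simp, by simp, by simp⟩
  have t : ∀ e {z}, R' < z → R e < z := fun e _ hz => ((r1 e).trans a2).trans_lt hz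
  have P : ∀ e (y : ℝ × ℝ), R' < y.1 → Pc S (M.P e) y := fun e y hy =>
    pc_of (o e).cht (o e).mem (t e hy)
  let M' : Mod := ⟨S, w, δ, C, n₁, n₂, Q, f, γ, n, g, R₀, R', max 1 K₁, s, ε⟩
  have eP : ∀ e, M'.P e = M.P e := by rintro (_ | _) <;> rfl
  have eN : ∀ e, M'.nE e = M.nE e := by rintro (_ | _) <;> rfl
  have eF : ∀ e, M'.Fr e = M.Fr e := by rintro (_ | _) <;> rfl
  refine ⟨M', rfl, h, ⟨a1, le_max_left _ _⟩, fun e => eP e ▸
    (o e).cht.mono ((r1 e).trans a2) (zero_le_one.trans a1) ((k1 e).trans (le_max_right _ _)),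
    fun e y hy => eP e ▸ (o e).mem y (t e hy), fun p hp k => ?_, fun e e' y y' hy hy' k => ?_,
    fun e => (o e).sq, fun e => eF e ▸ (o e).orth,
    fun e y hy => eP e ▸ eN e ▸ (o e).sgn y (t e hy), fun e y hy => ?_,
    fun i y hy => (o (.inl i)).sm y (t _ hy), fun j y hy => (o (.inr j)).sm y (t _ hy)⟩
  · have k' : R' + 1 / 8 < ‖p‖ := k
    obtain ⟨e, y, hy, rfl⟩ := c p hp (by linarith)
    have : R' < y.1 := by linarith [((o e).cht.rad y ((r1 e).trans_lt hy)).2]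
    exact ⟨e, y, this, congrFun (eP e) y⟩
  · by_contra ne
    have u : ∀ e θ, ‖dir M e θ‖ = 1 := by
      rintro (i | j) θ
      exacts [(on_Q _ 0).cc, (h.link j).unit θ]
    rw [eP, eP] at k
    exact (d e e' ne _ _).not_ge (sep (u _ _) (u _ _) (one_pos.trans_le (a1.trans hy.le))
      (one_pos.trans_le (a1.trans hy'.le)) η0 (by linarith) ((o e).nr y (t e hy))
      (k ▸ (o e').nr y' (t e' hy')))
  · have y0 : 0 < y.1 := one_pos.trans_le (a1.trans hy.le)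
    have b1 := (o e).sgn y (t e hy)
    have b2 := (o e).sm y (t e hy)
    obtain ⟨q1, q2⟩ := (o e).sq
    refine (pos_iff_pos_of_mul_pos (b := s e * ⟪gradient w (M.P e y), M.nE e y.2⟫) ?_).2
      (by linarith)
    rcases e with i | j
    · have b3 : 0 < √2 + f i y := by
        linarith [Real.one_lt_sqrt_two, (abs_le.1 b2).1]
      have := cyl_nu h.tube h.smooth (P (.inl i) y hy)
        ((h.cyl i).smooth.contDiffAt.of_le (by norm_cast)) b3.ne' ((o (.inl i)).orth _)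
      refine b3.trans_eq ?_
      simp only [Mod.JS, Mod.sg, Mod.Js, Mod.P, Mod.nE, M, M'] at this ⊢
      linear_combination ε (.inl i) * s (.inl i) * s (.inl i) * this
        - (√2 + f i y) * ε (.inl i) * ε (.inl i) * q1 - (√2 + f i y) * q2
    · have b3 : 0 < spd (γ j) * y.1 * (1 - kap (γ j) (n j) y.2 * g j (Real.log y.1, y.2)) :=
        mul_pos (mul_pos (Frm.spd_eq (h.link j)).1 y0) (by linarith [(abs_le.1 b2).2])
      have := con_nu h.tube h.smooth (h.link j) (h.cone j) y0 (P (.inr j) y hy)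
        ((o (.inr j)).orth _)
      refine b3.trans_eq ?_
      simp only [Mod.JS, Mod.sg, Mod.Js, Mod.P, Mod.nE, M, M'] at this ⊢
      generalize spd (γ j) * y.1 * (1 - kap (γ j) (n j) y.2 * g j (Real.log y.1, y.2)) = x at this ⊢
      linear_combination -(ε (.inr j) * s (.inr j) * s (.inr j)) * this
        - x * ε (.inr j) * ε (.inr j) * q1 - x * q2

end Vale.Agent.P218T
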